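import Mathlib

/-!
# P065, upper bound, cherry lemma of helper989 (note 19253), step (3) (helper650)

`c4`: many bad cherries give a 5-tuple `(z; i, j, k, l)` with the four bad cherries
`ik, il, jk, jl` and no exceptional triple (four leaves).
`four`: the eight width inequalities and the cocycle inequalities kill such a 5-tuple.
-/

set_option autoImplicit false

namespace Vale.Agent.P065.H650

open Finset

section
variable {α β : Type}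

open Classical in
/-- the number of homomorphisms of the 4-cycle, one graph -/
theorem c4_one (A : Finset α) (b : α → α → ℝ) :
    (∑ i ∈ A, ∑ k ∈ A, b i k) ^ 4 ≤
      (#A : ℝ) ^ 4 * ∑ i ∈ A, ∑ j ∈ A, (∑ k ∈ A, b i k * b j k) ^ 2 := by
  -- `S = ∑_k d_k`, `S^2 ≤ #A ∑_k d_k^2 = #A ∑_{ij} c_ij`, and again
  set S := ∑ i ∈ A, ∑ k ∈ A, b i k with hS
  have h1 : S ^ 2 ≤ #A * ∑ k ∈ A, (∑ i ∈ A, b i k) ^ 2 := by
    rw [hS, sum_comm]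
    exact sq_sum_le_card_mul_sum_sq
  have h2 : ∑ k ∈ A, (∑ i ∈ A, b i k) ^ 2 = ∑ i ∈ A, ∑ j ∈ A, ∑ k ∈ A, b i k * b j k := by
    have h3 : ∀ k ∈ A, (∑ i ∈ A, b i k) ^ 2 = ∑ i ∈ A, ∑ j ∈ A, b i k * b j k := by
      intro k _
      rw [sq, sum_mul_sum]
    rw [sum_congr rfl h3, sum_comm]
    refine sum_congr rfl fun i _ => ?_
    rw [sum_comm]
  have h4 : (∑ i ∈ A, ∑ j ∈ A, ∑ k ∈ A, b i k * b j k) ^ 2 ≤
      (#A : ℝ) ^ 2 * ∑ i ∈ A, ∑ j ∈ A, (∑ k ∈ A, b i k * b j k) ^ 2 := by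
    have h5 := sq_sum_le_card_mul_sum_sq (s := A ×ˢ A)
      (f := fun p : α × α => ∑ k ∈ A, b p.1 k * b p.2 k)
    rw [sum_product, sum_product, card_product] at h5
    push_cast at h5
    calc _ ≤ _ := h5
      _ = _ := by ring
  have h6 : 0 ≤ ∑ k ∈ A, (∑ i ∈ A, b i k) ^ 2 := sum_nonneg fun _ _ => sq_nonneg _
  calc S ^ 4 = (S ^ 2) ^ 2 := by ring
    _ ≤ (#A * ∑ k ∈ A, (∑ i ∈ A, b i k) ^ 2) ^ 2 := pow_le_pow_left₀ (sq_nonneg _) h1 2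
    _ = (#A : ℝ) ^ 2 * (∑ i ∈ A, ∑ j ∈ A, ∑ k ∈ A, b i k * b j k) ^ 2 := by rw [h2]; ring
    _ ≤ (#A : ℝ) ^ 2 * ((#A : ℝ) ^ 2 * ∑ i ∈ A, ∑ j ∈ A, (∑ k ∈ A, b i k * b j k) ^ 2) := by
        gcongr
    _ = _ := by ring

open Classical in
theorem c4 (A : Finset α) (Q : Finset β) (B : β → α → α → Prop) (X : β → α → α → α → Prop)
    {δ : ℝ} (hδ : 0 < δ)
    (hB : δ * (#A : ℝ) ^ 2 * #Q ≤ #{t ∈ Q ×ˢ A ×ˢ A | B t.1 t.2.1 t.2.2})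
    (hX : 16 * (#{t ∈ Q ×ˢ A ×ˢ A ×ˢ A | B t.1 t.2.1 t.2.2.1 ∧
      X t.1 t.2.1 t.2.2.1 t.2.2.2} : ℝ) < δ ^ 4 * (#A : ℝ) ^ 3 * #Q) :
    ∃ z ∈ Q, ∃ i ∈ A, ∃ j ∈ A, ∃ k ∈ A, ∃ l ∈ A,
      B z i k ∧ B z i l ∧ B z j k ∧ B z j l ∧
      ¬ X z i k j ∧ ¬ X z i k l ∧ ¬ X z i l j ∧ ¬ X z i l k ∧
      ¬ X z j k i ∧ ¬ X z j k l ∧ ¬ X z j l i ∧ ¬ X z j l k := by
  have hA0 : 0 < (#A : ℝ) := by
    rcases Nat.eq_zero_or_pos #A with h | h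
    · exfalso
      rw [h] at hX
      have : (0 : ℝ) ≤ 16 * (#{t ∈ Q ×ˢ A ×ˢ A ×ˢ A | B t.1 t.2.1 t.2.2.1 ∧
        X t.1 t.2.1 t.2.2.1 t.2.2.2} : ℝ) := by positivity
      norm_num at hX
      linarith
    · exact_mod_cast h
  have hQ0 : 0 < (#Q : ℝ) := by
    rcases Nat.eq_zero_or_pos #Q with h | h
    · exfalso
      rw [h] at hX
      have : (0 : ℝ) ≤ 16 * (#{t ∈ Q ×ˢ A ×ˢ A ×ˢ A | B t.1 t.2.1 t.2.2.1 ∧
        X t.1 t.2.1 t.2.2.1 t.2.2.2} : ℝ) := by positivity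
      norm_num at hX
      linarith
    · exact_mod_cast h
  set f : β → α → α → ℝ := fun z i j => if B z i j then 1 else 0 with hf
  set P : Finset (β × α × α × α × α) := {t ∈ Q ×ˢ A ×ˢ A ×ˢ A ×ˢ A |
    B t.1 t.2.1 t.2.2.2.1 ∧ B t.1 t.2.1 t.2.2.2.2 ∧ B t.1 t.2.2.1 t.2.2.2.1 ∧
      B t.1 t.2.2.1 t.2.2.2.2} with hP
  -- number of 5-tuples
  have hcard : (#P : ℝ) = ∑ z ∈ Q, ∑ i ∈ A, ∑ j ∈ A, (∑ k ∈ A, f z i k * f z j k) ^ 2 := by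
    rw [hP, card_filter]
    push_cast
    rw [sum_product]
    refine sum_congr rfl fun z _ => ?_
    rw [sum_product]
    refine sum_congr rfl fun i _ => ?_
    rw [sum_product]
    refine sum_congr rfl fun j _ => ?_
    rw [sq, sum_mul_sum, sum_product]
    refine sum_congr rfl fun k _ => sum_congr rfl fun l _ => ?_
    simp only [hf]
    by_cases h1 : B z i k <;> by_cases h2 : B z i l <;> by_cases h3 : B z j k <;>
      by_cases h4 : B z j l <;> simp [h1, h2, h3, h4]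
  have hcB : (#{t ∈ Q ×ˢ A ×ˢ A | B t.1 t.2.1 t.2.2} : ℝ) =
      ∑ z ∈ Q, ∑ i ∈ A, ∑ k ∈ A, f z i k := by
    rw [card_filter]
    push_cast
    rw [sum_product]
    refine sum_congr rfl fun z _ => ?_
    rw [sum_product]
  have hlow : δ ^ 4 * (#A : ℝ) ^ 4 * #Q ≤ #P := by
    have h1 : ∀ z ∈ Q, (∑ i ∈ A, ∑ k ∈ A, f z i k) ^ 4 ≤
        (#A : ℝ) ^ 4 * ∑ i ∈ A, ∑ j ∈ A, (∑ k ∈ A, f z i k * f z j k) ^ 2 :=
      fun z _ => c4_one A (f z)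
    have h2 : (∑ z ∈ Q, ∑ i ∈ A, ∑ k ∈ A, f z i k) ^ 4 ≤
        (#Q : ℝ) ^ 3 * ∑ z ∈ Q, (∑ i ∈ A, ∑ k ∈ A, f z i k) ^ 4 := by
      set g : β → ℝ := fun z => ∑ i ∈ A, ∑ k ∈ A, f z i k with hg
      have h3 : (∑ z ∈ Q, g z) ^ 2 ≤ #Q * ∑ z ∈ Q, (g z) ^ 2 := sq_sum_le_card_mul_sum_sq
      have h4 : (∑ z ∈ Q, (g z) ^ 2) ^ 2 ≤ #Q * ∑ z ∈ Q, ((g z) ^ 2) ^ 2 :=
        sq_sum_le_card_mul_sum_sq
      have h5 : 0 ≤ ∑ z ∈ Q, (g z) ^ 2 := sum_nonneg fun _ _ => sq_nonneg _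
      calc (∑ z ∈ Q, g z) ^ 4 = ((∑ z ∈ Q, g z) ^ 2) ^ 2 := by ring
        _ ≤ (#Q * ∑ z ∈ Q, (g z) ^ 2) ^ 2 := pow_le_pow_left₀ (sq_nonneg _) h3 2
        _ = (#Q : ℝ) ^ 2 * (∑ z ∈ Q, (g z) ^ 2) ^ 2 := by ring
        _ ≤ (#Q : ℝ) ^ 2 * (#Q * ∑ z ∈ Q, ((g z) ^ 2) ^ 2) := by gcongr
        _ = (#Q : ℝ) ^ 3 * ∑ z ∈ Q, (g z) ^ 4 := by
            have : ∀ z ∈ Q, ((g z) ^ 2) ^ 2 = (g z) ^ 4 := fun z _ => by ring
            rw [sum_congr rfl this]; ring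
    have h3 : (δ * (#A : ℝ) ^ 2 * #Q) ^ 4 ≤ (∑ z ∈ Q, ∑ i ∈ A, ∑ k ∈ A, f z i k) ^ 4 := by
      apply pow_le_pow_left₀ (by positivity)
      rw [← hcB]; exact hB
    have h4 : ∑ z ∈ Q, (∑ i ∈ A, ∑ k ∈ A, f z i k) ^ 4 ≤ (#A : ℝ) ^ 4 * #P := by
      rw [hcard, mul_sum]
      exact sum_le_sum h1
    have h5 : (δ * (#A : ℝ) ^ 2 * #Q) ^ 4 ≤ (#Q : ℝ) ^ 3 * ((#A : ℝ) ^ 4 * #P) :=
      h3.trans (h2.trans (by gcongr))
    have h6 : (0 : ℝ) < (#Q : ℝ) ^ 3 * (#A : ℝ) ^ 4 := by positivity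
    refine le_of_mul_le_mul_left ?_ h6
    calc (#Q : ℝ) ^ 3 * (#A : ℝ) ^ 4 * (δ ^ 4 * (#A : ℝ) ^ 4 * #Q)
        = (δ * (#A : ℝ) ^ 2 * #Q) ^ 4 := by ring
      _ ≤ (#Q : ℝ) ^ 3 * ((#A : ℝ) ^ 4 * #P) := h5
      _ = _ := by ring
  -- exceptional 5-tuples
  set T : Finset (β × α × α × α) := {t ∈ Q ×ˢ A ×ˢ A ×ˢ A | B t.1 t.2.1 t.2.2.1 ∧
      X t.1 t.2.1 t.2.2.1 t.2.2.2} with hT
  by_contra hcon
  push Not at hcon
  have key : ∀ (π : β × α × α × α × α → β × α × α × α) (ρ : β × α × α × α × α → α),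
      (∀ t t' : β × α × α × α × α, π t = π t' → ρ t = ρ t' → t = t') →
      (∀ t ∈ Q ×ˢ A ×ˢ A ×ˢ A ×ˢ A, π t ∈ Q ×ˢ A ×ˢ A ×ˢ A ∧ ρ t ∈ A) →
      #{t ∈ P | π t ∈ T} ≤ #T * #A := by
    intro π ρ hinj hmem
    rw [← card_product]
    apply card_le_card_of_injOn (fun t => (π t, ρ t))
    · intro t ht
      rw [Finset.mem_coe, mem_filter] at ht
      rw [Finset.mem_coe, mem_product]
      exact ⟨ht.2, (hmem t (mem_filter.1 ht.1).1).2⟩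
    · intro t _ t' _ h
      simp only [Prod.mk.injEq] at h
      exact hinj t t' h.1 h.2
  have hsub : P ⊆ {t ∈ P | (t.1, t.2.1, t.2.2.2.1, t.2.2.1) ∈ T} ∪
      {t ∈ P | (t.1, t.2.1, t.2.2.2.1, t.2.2.2.2) ∈ T} ∪
      {t ∈ P | (t.1, t.2.1, t.2.2.2.2, t.2.2.1) ∈ T} ∪
      {t ∈ P | (t.1, t.2.1, t.2.2.2.2, t.2.2.2.1) ∈ T} ∪
      {t ∈ P | (t.1, t.2.2.1, t.2.2.2.1, t.2.1) ∈ T} ∪
      {t ∈ P | (t.1, t.2.2.1, t.2.2.2.1, t.2.2.2.2) ∈ T} ∪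
      {t ∈ P | (t.1, t.2.2.1, t.2.2.2.2, t.2.1) ∈ T} ∪
      {t ∈ P | (t.1, t.2.2.1, t.2.2.2.2, t.2.2.2.1) ∈ T} := by
    rintro ⟨z, i, j, k, l⟩ ht
    have ht' := ht
    rw [hP, mem_filter] at ht'
    simp only [mem_product] at ht'
    obtain ⟨⟨hz, hi, hj, hk, hl⟩, b1, b2, b3, b4⟩ := ht'
    have hc := hcon z hz i hi j hj k hk l hl b1 b2 b3 b4
    simp only [mem_union, mem_filter, hT, mem_product, ht, hz, hi, hj, hk, hl, b1, b2, b3, b4,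
      true_and, and_self]
    by_contra hno
    push Not at hno
    tauto
  have h8 : #P ≤ 8 * (#T * #A) := by
    refine (card_le_card hsub).trans ?_
    have k1 := key (fun t => (t.1, t.2.1, t.2.2.2.1, t.2.2.1)) (fun t => t.2.2.2.2)
      (by rintro ⟨z, i, j, k, l⟩ ⟨z', i', j', k', l'⟩ h h'; simp only [Prod.mk.injEq] at h h' ⊢; tauto)
      (by rintro ⟨z, i, j, k, l⟩ h; simp only [mem_product] at h ⊢; tauto)
    have k2 := key (fun t => (t.1, t.2.1, t.2.2.2.1, t.2.2.2.2)) (fun t => t.2.2.1)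
      (by rintro ⟨z, i, j, k, l⟩ ⟨z', i', j', k', l'⟩ h h'; simp only [Prod.mk.injEq] at h h' ⊢; tauto)
      (by rintro ⟨z, i, j, k, l⟩ h; simp only [mem_product] at h ⊢; tauto)
    have k3 := key (fun t => (t.1, t.2.1, t.2.2.2.2, t.2.2.1)) (fun t => t.2.2.2.1)
      (by rintro ⟨z, i, j, k, l⟩ ⟨z', i', j', k', l'⟩ h h'; simp only [Prod.mk.injEq] at h h' ⊢; tauto)
      (by rintro ⟨z, i, j, k, l⟩ h; simp only [mem_product] at h ⊢; tauto)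
    have k4 := key (fun t => (t.1, t.2.1, t.2.2.2.2, t.2.2.2.1)) (fun t => t.2.2.1)
      (by rintro ⟨z, i, j, k, l⟩ ⟨z', i', j', k', l'⟩ h h'; simp only [Prod.mk.injEq] at h h' ⊢; tauto)
      (by rintro ⟨z, i, j, k, l⟩ h; simp only [mem_product] at h ⊢; tauto)
    have k5 := key (fun t => (t.1, t.2.2.1, t.2.2.2.1, t.2.1)) (fun t => t.2.2.2.2)
      (by rintro ⟨z, i, j, k, l⟩ ⟨z', i', j', k', l'⟩ h h'; simp only [Prod.mk.injEq] at h h' ⊢; tauto)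
      (by rintro ⟨z, i, j, k, l⟩ h; simp only [mem_product] at h ⊢; tauto)
    have k6 := key (fun t => (t.1, t.2.2.1, t.2.2.2.1, t.2.2.2.2)) (fun t => t.2.1)
      (by rintro ⟨z, i, j, k, l⟩ ⟨z', i', j', k', l'⟩ h h'; simp only [Prod.mk.injEq] at h h' ⊢; tauto)
      (by rintro ⟨z, i, j, k, l⟩ h; simp only [mem_product] at h ⊢; tauto)
    have k7 := key (fun t => (t.1, t.2.2.1, t.2.2.2.2, t.2.1)) (fun t => t.2.2.2.1)
      (by rintro ⟨z, i, j, k, l⟩ ⟨z', i', j', k', l'⟩ h h'; simp only [Prod.mk.injEq] at h h' ⊢; tauto)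
      (by rintro ⟨z, i, j, k, l⟩ h; simp only [mem_product] at h ⊢; tauto)
    have k8 := key (fun t => (t.1, t.2.2.1, t.2.2.2.2, t.2.2.2.1)) (fun t => t.2.1)
      (by rintro ⟨z, i, j, k, l⟩ ⟨z', i', j', k', l'⟩ h h'; simp only [Prod.mk.injEq] at h h' ⊢; tauto)
      (by rintro ⟨z, i, j, k, l⟩ h; simp only [mem_product] at h ⊢; tauto)
    refine (card_union_le _ _).trans ?_
    refine (Nat.add_le_add ((card_union_le _ _).trans (Nat.add_le_add ((card_union_le _ _).trans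
      (Nat.add_le_add ((card_union_le _ _).trans (Nat.add_le_add ((card_union_le _ _).trans
      (Nat.add_le_add ((card_union_le _ _).trans (Nat.add_le_add ((card_union_le _ _).trans
      (Nat.add_le_add k1 k2)) k3)) k4)) k5)) k6)) k7)) k8).trans ?_
    exact le_of_eq (by ring)
  have h9 : (#P : ℝ) ≤ 8 * (#T * #A) := by exact_mod_cast h8
  have h10 : 8 * ((#T : ℝ) * #A) * 2 < δ ^ 4 * (#A : ℝ) ^ 4 * #Q := by
    calc 8 * ((#T : ℝ) * #A) * 2 = (16 * #T) * #A := by ring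
      _ < (δ ^ 4 * (#A : ℝ) ^ 3 * #Q) * #A := by
          apply mul_lt_mul_of_pos_right hX hA0
      _ = _ := by ring
  have h11 : (0 : ℝ) ≤ (#T : ℝ) * #A := by positivity
  linarith

end

/-- the four leaf contradiction: `w i j k` = width at leaf `i` with respect to `j, k`.
`x1 = w_1^(23)` etc. -/
theorem four {w123 w124 w134 w213 w214 w234 w312 w314 w324 w412 w413 w423 : ℝ}
    (p1 : 0 ≤ w134) (p2 : 0 ≤ w234)
    -- (13|2), (23|1)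
    (a1 : w213 ≤ (w123 + w312) / 4) (a2 : w123 ≤ (w213 + w312) / 4)
    -- (14|2), (24|1)
    (a3 : w214 ≤ (w124 + w412) / 4) (a4 : w124 ≤ (w214 + w412) / 4)
    -- (13|4), (14|3)
    (a5 : w413 ≤ (w134 + w314) / 4) (a6 : w314 ≤ (w134 + w413) / 4)
    -- (23|4), (24|3)
    (a7 : w423 ≤ (w234 + w324) / 4) (a8 : w324 ≤ (w234 + w423) / 4)
    (c1 : w134 ≤ w123 + w124) (c2 : w234 ≤ w213 + w214)
    (c3 : w312 ≤ w314 + w324) (c4 : w412 ≤ w413 + w423) :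
    w134 = 0 ∧ w234 = 0 := by
  have h1 : w213 + w123 ≤ 2 / 3 * w312 := by linarith
  have h2 : w214 + w124 ≤ 2 / 3 * w412 := by linarith
  have h3 : w413 + w314 ≤ 2 / 3 * w134 := by linarith
  have h4 : w423 + w324 ≤ 2 / 3 * w234 := by linarith
  have h5 : w134 + w234 ≤ 4 / 9 * (w134 + w234) := by linarith
  constructor <;> linarith

end Vale.Agent.P065.H650
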