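import Mathlib

/-!
# P065, upper bound, block [FLAG], abstract part (helper650)

A finite set `A0` of apexes is ordered by a key `u`.  For every point `q` the apexes which see `q`
are distributed over windows `w`; `AA q w` is the set of apexes which see `q` through `w`, `HH q w`
its hull in the order of `u`.  If the hulls of different windows overlap only boundedly often and
every block of `b` consecutive apexes is met richly by few windows, then few pairs `(a, q)` have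
`b` or more companions.
-/

set_option autoImplicit false

namespace Vale.Agent.P065.H650

open Finset

section
variable {α β : Type}

open Classical in
/-- the apexes which see `q` through `w` -/
noncomputable def AA (A0 : Finset α) (Pr : Finset (α × β)) (Wd : α → β → ℕ) (q : β) (w : ℕ) :
    Finset α :=
  {a ∈ A0 | (a, q) ∈ Pr ∧ Wd a q = w}

open Classical in
/-- the hull of `AA q w` in the order of the key `u` -/
noncomputable def HH (A0 : Finset α) (Pr : Finset (α × β)) (Wd : α → β → ℕ) (u : α → ℝ)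
    (q : β) (w : ℕ) : Finset α :=
  {a ∈ A0 | (∃ a1 ∈ AA A0 Pr Wd q w, u a1 ≤ u a) ∧ ∃ a3 ∈ AA A0 Pr Wd q w, u a ≤ u a3}

open Classical in
/-- rank of `a` in `A0` -/
noncomputable def idx (A0 : Finset α) (u : α → ℝ) (a : α) : ℕ := #{a' ∈ A0 | u a' < u a}

/-- block number of `a` -/
noncomputable def blk (A0 : Finset α) (u : α → ℝ) (b : ℕ) (a : α) : ℕ := idx A0 u a / b

open Classical in
/-- the block `i` -/
noncomputable def Bk (A0 : Finset α) (u : α → ℝ) (b : ℕ) (i : ℕ) : Finset α :=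
  {a ∈ A0 | blk A0 u b a = i}

theorem mem_AA {A0 : Finset α} {Pr : Finset (α × β)} {Wd : α → β → ℕ} {q : β} {w : ℕ} {a : α} :
    a ∈ AA A0 Pr Wd q w ↔ a ∈ A0 ∧ (a, q) ∈ Pr ∧ Wd a q = w := by
  unfold AA; simp

theorem AA_subset (A0 : Finset α) (Pr : Finset (α × β)) (Wd : α → β → ℕ) (q : β) (w : ℕ) :
    AA A0 Pr Wd q w ⊆ A0 := fun _ h => (mem_AA.1 h).1

theorem mem_HH {A0 : Finset α} {Pr : Finset (α × β)} {Wd : α → β → ℕ} {u : α → ℝ} {q : β}
    {w : ℕ} {a : α} :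
    a ∈ HH A0 Pr Wd u q w ↔ a ∈ A0 ∧ (∃ a1 ∈ AA A0 Pr Wd q w, u a1 ≤ u a) ∧
      ∃ a3 ∈ AA A0 Pr Wd q w, u a ≤ u a3 := by
  unfold HH; simp

theorem AA_subset_HH (A0 : Finset α) (Pr : Finset (α × β)) (Wd : α → β → ℕ) (u : α → ℝ)
    (q : β) (w : ℕ) : AA A0 Pr Wd q w ⊆ HH A0 Pr Wd u q w := fun a h =>
  mem_HH.2 ⟨(mem_AA.1 h).1, ⟨a, h, le_rfl⟩, ⟨a, h, le_rfl⟩⟩

theorem mem_Bk {A0 : Finset α} {u : α → ℝ} {b i : ℕ} {a : α} :
    a ∈ Bk A0 u b i ↔ a ∈ A0 ∧ blk A0 u b a = i := by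
  unfold Bk; simp

theorem idx_lt {A0 : Finset α} {u : α → ℝ} {a a' : α} (ha : a ∈ A0) (h : u a < u a') :
    idx A0 u a < idx A0 u a' := by
  classical
  unfold idx
  apply card_lt_card
  rw [ssubset_iff_of_subset]
  · exact ⟨a, by simp [ha, h], by simp⟩
  · intro x hx
    simp only [mem_filter] at hx ⊢
    exact ⟨hx.1, hx.2.trans h⟩

theorem idx_injOn {A0 : Finset α} {u : α → ℝ} (hu : Set.InjOn u A0) :
    Set.InjOn (idx A0 u) A0 := by
  intro a ha a' ha' h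
  rcases lt_trichotomy (u a) (u a') with h1 | h1 | h1
  · exact absurd h (idx_lt ha h1).ne
  · exact hu ha ha' h1
  · exact absurd h (idx_lt ha' h1).ne'

theorem card_Bk {A0 : Finset α} {u : α → ℝ} (hu : Set.InjOn u A0) {b : ℕ} (hb : 1 ≤ b) (i : ℕ) :
    #(Bk A0 u b i) ≤ b := by
  classical
  have h1 : #(Bk A0 u b i) ≤ #(Finset.Ico (b * i) (b * i + b)) := by
    apply card_le_card_of_injOn (idx A0 u)
    · intro a ha
      rw [Finset.mem_coe, mem_Bk] at ha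
      have h2 : idx A0 u a / b = i := ha.2
      rw [Finset.coe_Ico, Set.mem_Ico]
      subst h2
      exact ⟨Nat.mul_div_le _ _, Nat.lt_mul_div_succ _ (by omega)⟩
    · exact (idx_injOn hu).mono fun a ha => (mem_Bk.1 ha).1
  simpa using h1

/-- a hull meets few blocks -/
theorem card_image_blk {A0 : Finset α} {Pr : Finset (α × β)} {Wd : α → β → ℕ} {u : α → ℝ}
    {b : ℕ} (hb : 1 ≤ b) (q : β) (w : ℕ) :
    #((HH A0 Pr Wd u q w).image (blk A0 u b)) * b ≤ #(HH A0 Pr Wd u q w) + 2 * b := by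
  classical
  set H := HH A0 Pr Wd u q w with hH
  rcases H.eq_empty_or_nonempty with h0 | hne
  · rw [h0]; simp
  obtain ⟨x, hx, hxmin⟩ := H.exists_min_image u hne
  obtain ⟨y, hy, hymax⟩ := H.exists_max_image u hne
  have hmono : ∀ a ∈ H, ∀ a' ∈ H, u a ≤ u a' → idx A0 u a ≤ idx A0 u a' := by
    intro a _ a' _ h
    unfold idx
    apply card_le_card
    intro z hz
    simp only [mem_filter] at hz ⊢
    exact ⟨hz.1, lt_of_lt_of_le hz.2 h⟩
  have himg : H.image (blk A0 u b) ⊆ Finset.Icc (blk A0 u b x) (blk A0 u b y) := by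
    intro i hi
    rw [mem_image] at hi
    obtain ⟨a, ha, rfl⟩ := hi
    rw [mem_Icc]
    exact ⟨Nat.div_le_div_right (hmono x hx a ha (hxmin a ha)),
      Nat.div_le_div_right (hmono a ha y hy (hymax a ha))⟩
  have hidx : idx A0 u y ≤ idx A0 u x + #H := by
    unfold idx
    rw [← card_union_add_card_inter]
    refine le_trans (card_le_card ?_) (Nat.le_add_right _ _)
    intro z hz
    rw [mem_filter] at hz
    rw [mem_union, mem_filter]
    by_cases h : u z < u x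
    · exact Or.inl ⟨hz.1, h⟩
    · right
      rw [hH, mem_HH]
      obtain ⟨_, ⟨a1, ha1, h1⟩, _⟩ := mem_HH.1 (hH ▸ hx)
      obtain ⟨_, _, ⟨a3, ha3, h3⟩⟩ := mem_HH.1 (hH ▸ hy)
      exact ⟨hz.1, ⟨a1, ha1, h1.trans (not_lt.1 h)⟩, ⟨a3, ha3, hz.2.le.trans h3⟩⟩
  have hcard : #(H.image (blk A0 u b)) ≤ blk A0 u b y + 1 - blk A0 u b x := by
    have := card_le_card himg
    rwa [Nat.card_Icc] at this
  have h1 : blk A0 u b y * b ≤ idx A0 u y := Nat.div_mul_le_self _ _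
  have h2 : idx A0 u x < b * (blk A0 u b x + 1) := Nat.lt_mul_div_succ _ (by omega)
  have h3 : #(H.image (blk A0 u b)) * b ≤ (blk A0 u b y + 1 - blk A0 u b x) * b :=
    Nat.mul_le_mul_right _ hcard
  refine h3.trans ?_
  rw [Nat.sub_mul, Nat.add_mul]
  have h4 : b * (blk A0 u b x + 1) = blk A0 u b x * b + b := by ring
  omega


open Classical in
/-- the fibre of a set of pairs over `(q, w)` injects into `AA q w` -/
theorem card_fibre_le {A0 : Finset α} {Pr : Finset (α × β)} {Wd : α → β → ℕ}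
    (hA : ∀ e ∈ Pr, e.1 ∈ A0) {B : Finset (α × β)} (hB : B ⊆ Pr) (p : β × ℕ) :
    #{e ∈ B | (e.2, Wd e.1 e.2) = p} ≤ #(AA A0 Pr Wd p.1 p.2) := by
  apply card_le_card_of_injOn (fun e => e.1)
  · intro e he
    rw [Finset.mem_coe, mem_filter] at he
    rw [Finset.mem_coe, mem_AA]
    obtain ⟨h1, h2⟩ := he
    rw [Prod.ext_iff] at h2
    simp only at h2
    refine ⟨hA e (hB h1), ?_, ?_⟩
    · rw [← h2.1]; exact hB h1
    · rw [← h2.1]; exact h2.2
  · intro e he e' he' h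
    rw [Finset.mem_coe, mem_filter] at he he'
    have h2 := he.2
    have h2' := he'.2
    rw [Prod.ext_iff] at h2 h2'
    exact Prod.ext h (h2.1.trans h2'.1.symm)

open Classical in
theorem bad1_le {A0 : Finset α} {Q : Finset β} {Pr : Finset (α × β)} {Wd : α → β → ℕ}
    {W : Finset ℕ} {u : α → ℝ} {C0 : ℕ}
    (hA : ∀ e ∈ Pr, e.1 ∈ A0) (hQ : ∀ e ∈ Pr, e.2 ∈ Q) (hW : ∀ e ∈ Pr, Wd e.1 e.2 ∈ W)
    (hmult : ∀ q ∈ Q, ∀ a ∈ A0, #{w ∈ W | a ∈ HH A0 Pr Wd u q w} ≤ C0) {X : ℝ} (hX : 0 ≤ X) :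
    X * #{e ∈ Pr | X * #(AA A0 Pr Wd e.2 (Wd e.1 e.2)) < #(HH A0 Pr Wd u e.2 (Wd e.1 e.2))} ≤
      C0 * #A0 * #Q := by
  set B := {e ∈ Pr | X * #(AA A0 Pr Wd e.2 (Wd e.1 e.2)) < #(HH A0 Pr Wd u e.2 (Wd e.1 e.2))}
    with hBdef
  have hBP : B ⊆ Pr := filter_subset _ _
  have h1 : #B = ∑ p ∈ Q ×ˢ W, #{e ∈ B | (e.2, Wd e.1 e.2) = p} := by
    apply card_eq_sum_card_fiberwise
    intro e he
    exact Finset.mem_product.2 ⟨hQ e (hBP he), hW e (hBP he)⟩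
  have h2 : ∀ p ∈ Q ×ˢ W, X * (#{e ∈ B | (e.2, Wd e.1 e.2) = p} : ℝ) ≤
      #(HH A0 Pr Wd u p.1 p.2) := by
    intro p _
    rcases ({e ∈ B | (e.2, Wd e.1 e.2) = p}).eq_empty_or_nonempty with h0 | ⟨e, he⟩
    · rw [h0]; simp
    · rw [mem_filter, hBdef, mem_filter] at he
      obtain ⟨⟨_, h3⟩, h4⟩ := he
      rw [Prod.ext_iff] at h4
      simp only at h4
      rw [h4.2, h4.1] at h3
      refine le_trans ?_ h3.le
      apply mul_le_mul_of_nonneg_left _ hX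
      exact_mod_cast card_fibre_le hA hBP p
  have h3 : ∑ p ∈ Q ×ˢ W, #(HH A0 Pr Wd u p.1 p.2) ≤ C0 * #A0 * #Q := by
    rw [sum_product]
    have h4 : ∀ q ∈ Q, ∑ w ∈ W, #(HH A0 Pr Wd u q w) ≤ #A0 * C0 := by
      intro q hq
      have h5 : ∀ w ∈ W, #(HH A0 Pr Wd u q w) = #{a ∈ A0 | a ∈ HH A0 Pr Wd u q w} := by
        intro w _
        congr 1
        ext a
        simp only [mem_filter]
        exact ⟨fun h => ⟨(mem_HH.1 h).1, h⟩, fun h => h.2⟩
      rw [sum_congr rfl h5]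
      have h6 : ∑ w ∈ W, #{a ∈ A0 | a ∈ HH A0 Pr Wd u q w}
          = ∑ a ∈ A0, #{w ∈ W | a ∈ HH A0 Pr Wd u q w} :=
        sum_card_bipartiteAbove_eq_sum_card_bipartiteBelow
          (fun w a => a ∈ HH A0 Pr Wd u q w)
      rw [h6]
      calc ∑ a ∈ A0, #{w ∈ W | a ∈ HH A0 Pr Wd u q w} ≤ ∑ _a ∈ A0, C0 :=
            sum_le_sum fun a ha => hmult q hq a ha
        _ = #A0 * C0 := by rw [sum_const, smul_eq_mul]
    calc ∑ q ∈ Q, ∑ w ∈ W, #(HH A0 Pr Wd u q w) ≤ ∑ _q ∈ Q, #A0 * C0 := sum_le_sum h4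
      _ = C0 * #A0 * #Q := by rw [sum_const, smul_eq_mul]; ring
  calc X * (#B : ℝ) = ∑ p ∈ Q ×ˢ W, X * (#{e ∈ B | (e.2, Wd e.1 e.2) = p} : ℝ) := by
        rw [h1, ← mul_sum]; push_cast; rfl
    _ ≤ ∑ p ∈ Q ×ˢ W, (#(HH A0 Pr Wd u p.1 p.2) : ℝ) := sum_le_sum h2
    _ ≤ C0 * #A0 * #Q := by exact_mod_cast h3

open Classical in
theorem bad2_le {A0 : Finset α} {Q : Finset β} {Pr : Finset (α × β)} {u : α → ℝ}
    (hu : Set.InjOn u A0) {b : ℕ} (hb : 1 ≤ b)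
    (hA : ∀ e ∈ Pr, e.1 ∈ A0) (hQ : ∀ e ∈ Pr, e.2 ∈ Q)
    {Zc : ℕ → ℝ} (hZ0 : ∀ i, 0 ≤ Zc i) {S : ℝ}
    (hZ : ∑ i ∈ A0.image (blk A0 u b), Zc i ≤ S) {Y : ℝ} (hY : 0 ≤ Y) :
    Y * #{e ∈ Pr | Y * b < Zc (blk A0 u b e.1)} ≤ S * #Q := by
  set A1 := {a ∈ A0 | Y * b < Zc (blk A0 u b a)} with hA1
  have h1 : {e ∈ Pr | Y * b < Zc (blk A0 u b e.1)} ⊆ A1 ×ˢ Q := by
    intro e he
    rw [mem_filter] at he
    rw [mem_product, hA1, mem_filter]
    exact ⟨⟨hA e he.1, he.2⟩, hQ e he.1⟩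
  have h2 : Y * (#A1 : ℝ) ≤ S := by
    have h3 : #A1 = ∑ i ∈ A0.image (blk A0 u b), #{a ∈ A1 | blk A0 u b a = i} := by
      apply card_eq_sum_card_fiberwise
      intro a ha
      exact mem_image_of_mem _ (mem_filter.1 ha).1
    have h4 : ∀ i ∈ A0.image (blk A0 u b), Y * (#{a ∈ A1 | blk A0 u b a = i} : ℝ) ≤ Zc i := by
      intro i _
      rcases ({a ∈ A1 | blk A0 u b a = i}).eq_empty_or_nonempty with h0 | ⟨a, ha⟩
      · rw [h0]; simpa using hZ0 i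
      · rw [mem_filter, hA1, mem_filter] at ha
        obtain ⟨⟨_, h5⟩, h6⟩ := ha
        rw [h6] at h5
        refine le_trans ?_ h5.le
        apply mul_le_mul_of_nonneg_left _ hY
        have h7 : #{a ∈ A1 | blk A0 u b a = i} ≤ #(Bk A0 u b i) := by
          apply card_le_card
          intro x hx
          rw [mem_filter, hA1, mem_filter] at hx
          exact mem_Bk.2 ⟨hx.1.1, hx.2⟩
        exact_mod_cast h7.trans (card_Bk hu hb i)
    calc Y * (#A1 : ℝ) = ∑ i ∈ A0.image (blk A0 u b), Y * (#{a ∈ A1 | blk A0 u b a = i} : ℝ) := by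
          rw [h3, ← mul_sum]; push_cast; rfl
      _ ≤ ∑ i ∈ A0.image (blk A0 u b), Zc i := sum_le_sum h4
      _ ≤ S := hZ
  have h3 : (#{e ∈ Pr | Y * b < Zc (blk A0 u b e.1)} : ℝ) ≤ #A1 * #Q := by
    have := card_le_card h1
    rw [card_product] at this
    exact_mod_cast this
  calc Y * (#{e ∈ Pr | Y * b < Zc (blk A0 u b e.1)} : ℝ) ≤ Y * (#A1 * #Q) :=
        mul_le_mul_of_nonneg_left h3 hY
    _ = Y * #A1 * #Q := by ring
    _ ≤ S * #Q := mul_le_mul_of_nonneg_right h2 (Nat.cast_nonneg _)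

end

end Vale.Agent.P065.H650
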