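import Vale.Agent.P065.UB.H410.MultDefs

/-!
# P065, upper bound: LEMMA M from its group form (helper650)

`mult_of_group : StGroup → StMult` (Props of helper410, `UB/H410/MultDefs.lean`).
-/

set_option autoImplicit false

namespace Vale.Agent.P065.H650

open Finset Vale.Agent.P065.UB Vale.Agent.P065.UB.RankAux Vale.Agent.P065.H183
open Vale.Agent.P065.UB.H415 (prj sl_symm sl_prj_le)
open Vale.Agent.P065.UB.H410 (StGroup StMult)

open Classical in
/-- pigeonhole: big fibres of `k` are at least half covered by the big fibres of `(k, τ)` -/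
theorem pig8 {α κ τ : Type} [Fintype τ] (hτ : Fintype.card τ ≤ 8) (Z : Finset α) (k : α → κ)
    (t : α → τ) {M : ℕ} :
    #{z ∈ Z | 16 * M ≤ #{z' ∈ Z | k z' = k z}} ≤
      2 * #{z ∈ Z | M ≤ #{z' ∈ Z | k z' = k z ∧ t z' = t z}} := by
  set big := {z ∈ Z | 16 * M ≤ #{z' ∈ Z | k z' = k z}} with hbig
  set poor := {z ∈ big | ¬ M ≤ #{z' ∈ Z | k z' = k z ∧ t z' = t z}} with hpoor
  have h1 : #(big) = #{z ∈ big | M ≤ #{z' ∈ Z | k z' = k z ∧ t z' = t z}} + #(poor) :=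
    (card_filter_add_card_filter_not _).symm
  have h2 : #{z ∈ big | M ≤ #{z' ∈ Z | k z' = k z ∧ t z' = t z}} ≤
      #{z ∈ Z | M ≤ #{z' ∈ Z | k z' = k z ∧ t z' = t z}} :=
    card_le_card (filter_subset_filter _ (filter_subset _ _))
  have h3 : 2 * #(poor) ≤ #(big) := by
    have e1 : #(poor) = ∑ x ∈ big.image k, #{z ∈ poor | k z = x} :=
      card_eq_sum_card_fiberwise fun z hz => mem_image_of_mem _ (mem_filter.1 hz).1
    have e2 : #(big) = ∑ x ∈ big.image k, #{z ∈ big | k z = x} :=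
      card_eq_sum_card_fiberwise fun z hz => mem_image_of_mem _ hz
    rw [e1, e2, mul_sum]
    apply sum_le_sum
    intro x hx
    obtain ⟨z0, hz0, rfl⟩ := mem_image.1 hx
    have e3 : 16 * M ≤ #{z ∈ big | k z = k z0} := by
      have h4 := (mem_filter.1 hz0).2
      refine h4.trans (card_le_card ?_)
      intro z hz
      obtain ⟨hz1, hz2⟩ := mem_filter.1 hz
      rw [mem_filter, hbig, mem_filter]
      refine ⟨⟨hz1, ?_⟩, hz2⟩
      rw [hz2]; exact h4
    have e4 : #{z ∈ poor | k z = k z0} ≤ 8 * M := by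
      have e5 : #{z ∈ poor | k z = k z0} =
          ∑ y : τ, #{z ∈ {z ∈ poor | k z = k z0} | t z = y} :=
        card_eq_sum_card_fiberwise fun z _ => mem_univ _
      rw [e5]
      calc ∑ y : τ, #{z ∈ {z ∈ poor | k z = k z0} | t z = y} ≤ ∑ _y : τ, M := by
            apply sum_le_sum
            intro y _
            rcases ({z ∈ {z ∈ poor | k z = k z0} | t z = y}).eq_empty_or_nonempty with h0 | ⟨v, hv⟩
            · rw [h0]; simp
            · rw [mem_filter, mem_filter, hpoor, mem_filter] at hv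
              obtain ⟨⟨⟨hv1, hv2⟩, hv3⟩, hv4⟩ := hv
              refine le_trans (card_le_card ?_) (not_le.1 hv2).le
              intro z hz
              rw [mem_filter, mem_filter, hpoor, mem_filter, hbig, mem_filter] at hz
              rw [mem_filter]
              exact ⟨hz.1.1.1.1, hz.1.2.trans hv3.symm, hz.2.trans hv4.symm⟩
        _ = Fintype.card τ * M := by rw [sum_const, smul_eq_mul, card_univ]
        _ ≤ 8 * M := Nat.mul_le_mul_right _ hτ
    omega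
  omega

section
variable (E : Finset (Pt × Pt)) (Wd : Pt × Pt → ℕ)

open Classical in
/-- the slopes of `E` in the window `w` -/
noncomputable def Sl (w : ℕ) : Finset ℝ := {e ∈ E | Wd e = w}.image fun e => sl e.1 e.2

noncomputable def tlo (w : ℕ) : ℝ := sInf (Sl E Wd w : Set ℝ)
noncomputable def thi (w : ℕ) : ℝ := sSup (Sl E Wd w : Set ℝ)

/-- distance of the slope of `e` to the nearest end of its window -/
noncomputable def dE (e : Pt × Pt) : ℝ :=
  min (sl e.1 e.2 - tlo E Wd (Wd e)) (thi E Wd (Wd e) - sl e.1 e.2)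

noncomputable def th (e : Pt × Pt) : ℝ := dE E Wd e * |e.2.1 - e.1.1|

open Classical in
noncomputable def en (e : Pt × Pt) : Bool :=
  decide (sl e.1 e.2 - tlo E Wd (Wd e) ≤ thi E Wd (Wd e) - sl e.1 e.2)

/-- the end of the window `w` -/
noncomputable def mm (w : ℕ) (s : Bool) : ℝ := if s = true then tlo E Wd w else thi E Wd w

open Classical in
noncomputable def sd (e : Pt × Pt) : Bool := decide (e.1.1 < e.2.1)

variable {E Wd}

theorem mem_Sl {e : Pt × Pt} (he : e ∈ E) : sl e.1 e.2 ∈ Sl E Wd (Wd e) := by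
  classical
  exact mem_image.2 ⟨e, mem_filter.2 ⟨he, rfl⟩, rfl⟩

theorem tlo_le {e : Pt × Pt} (he : e ∈ E) : tlo E Wd (Wd e) ≤ sl e.1 e.2 :=
  csInf_le (Finset.bddBelow _) (Finset.mem_coe.2 (mem_Sl he))

theorem le_thi {e : Pt × Pt} (he : e ∈ E) : sl e.1 e.2 ≤ thi E Wd (Wd e) :=
  le_csSup (Finset.bddAbove _) (Finset.mem_coe.2 (mem_Sl he))

theorem Sl_sub {I : ℕ → Set ℝ} (hI : ∀ e ∈ E, sl e.1 e.2 ∈ I (Wd e)) {w : ℕ} {s : ℝ}
    (hs : s ∈ Sl E Wd w) : s ∈ I w := by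
  classical
  obtain ⟨e, he, rfl⟩ := Finset.mem_image.1 hs
  obtain ⟨he', rfl⟩ := Finset.mem_filter.1 he
  exact hI e he'

theorem tlo_mem {I : ℕ → Set ℝ} (hI : ∀ e ∈ E, sl e.1 e.2 ∈ I (Wd e)) {e : Pt × Pt}
    (he : e ∈ E) : tlo E Wd (Wd e) ∈ I (Wd e) :=
  Sl_sub hI (Finset.Nonempty.csInf_mem ⟨_, mem_Sl he⟩)

theorem thi_mem {I : ℕ → Set ℝ} (hI : ∀ e ∈ E, sl e.1 e.2 ∈ I (Wd e)) {e : Pt × Pt}
    (he : e ∈ E) : thi E Wd (Wd e) ∈ I (Wd e) :=
  Sl_sub hI (Finset.Nonempty.csSup_mem ⟨_, mem_Sl he⟩)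

theorem mm_mem {I : ℕ → Set ℝ} (hI : ∀ e ∈ E, sl e.1 e.2 ∈ I (Wd e)) {e : Pt × Pt}
    (he : e ∈ E) (s : Bool) : mm E Wd (Wd e) s ∈ I (Wd e) := by
  unfold mm
  split_ifs
  · exact tlo_mem hI he
  · exact thi_mem hI he

theorem abs_mm {e : Pt × Pt} (he : e ∈ E) :
    |sl e.1 e.2 - mm E Wd (Wd e) (en E Wd e)| = dE E Wd e := by
  have a1 := tlo_le (Wd := Wd) he
  have a2 := le_thi (Wd := Wd) he
  unfold mm en dE
  by_cases h : sl e.1 e.2 - tlo E Wd (Wd e) ≤ thi E Wd (Wd e) - sl e.1 e.2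
  · rw [if_pos (by simpa using h), min_eq_left h, abs_of_nonneg (by linarith)]
  · rw [if_neg (by simpa using h), min_eq_right (not_le.1 h).le, abs_of_nonpos (by linarith)]
    ring

/-- **exactness** (helper415): the projected centre is seen from the second leaf in its window -/
theorem exact_of_le {I : ℕ → Set ℝ} {W : Finset ℕ} (hconn : ∀ w ∈ W, (I w).OrdConnected)
    (hW : ∀ e ∈ E, Wd e ∈ W) (hI : ∀ e ∈ E, sl e.1 e.2 ∈ I (Wd e))
    (hx : ∀ e ∈ E, e.1.1 ≠ e.2.1) {c b z : Pt} (hc : (c, z) ∈ E) (hb : (b, z) ∈ E)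
    (hθ : th E Wd (c, z) ≤ th E Wd (b, z)) :
    sl (prj (mm E Wd (Wd (c, z)) (en E Wd (c, z))) c z) b ∈ I (Wd (b, z)) := by
  set m0 := mm E Wd (Wd (c, z)) (en E Wd (c, z)) with hm0
  have hac : z.1 ≠ c.1 := (hx _ hc).symm
  have haq : z.1 ≠ b.1 := (hx _ hb).symm
  have h1 : |sl z c - m0| = dE E Wd (c, z) := by
    have := abs_mm (Wd := Wd) hc
    simp only at this
    rw [sl_symm z c]; exact this
  have hmove : |sl (prj m0 c z) b - sl z b| ≤ dE E Wd (b, z) := by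
    apply sl_prj_le hac haq
    rw [h1]
    exact hθ
  have b1 : dE E Wd (b, z) ≤ sl b z - tlo E Wd (Wd (b, z)) := min_le_left _ _
  have b2 : dE E Wd (b, z) ≤ thi E Wd (Wd (b, z)) - sl b z := min_le_right _ _
  rw [sl_symm z b] at hmove
  obtain ⟨b3, b4⟩ := abs_le.1 hmove
  exact (hconn _ (hW _ hb)).out (tlo_mem hI hb) (thi_mem hI hb) ⟨by linarith, by linarith⟩

end

section
variable (E : Finset (Pt × Pt)) (Wd : Pt × Pt → ℕ)

open Classical in
/-- bad pairs of the leaf `c` -/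
noncomputable def BB (A Q : Finset Pt) (M : ℕ) (c : Pt) : Finset (Pt × Pt) :=
  {e ∈ Q ×ˢ A | (c, e.1) ∈ E ∧ (e.2, e.1) ∈ E ∧ Wd (c, e.1) ≠ Wd (e.2, e.1) ∧
    th E Wd (c, e.1) ≤ th E Wd (e.2, e.1) ∧
    M ≤ #{z ∈ Q | (c, z) ∈ E ∧ (e.2, z) ∈ E ∧ Wd (c, z) = Wd (c, e.1) ∧
      Wd (e.2, z) = Wd (e.2, e.1) ∧ en E Wd (c, z) = en E Wd (c, e.1) ∧
      sd (c, z) = sd (c, e.1) ∧ th E Wd (c, z) ≤ th E Wd (e.2, z)}}

open Classical in
/-- a group -/
noncomputable def GG (Q : Finset Pt) (c : Pt) (w : ℕ) (s σ : Bool) : Finset Pt :=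
  {z ∈ Q | (c, z) ∈ E ∧ Wd (c, z) = w ∧ en E Wd (c, z) = s ∧ sd (c, z) = σ}

open Classical in
/-- the pairs of a group -/
noncomputable def PP (A Q : Finset Pt) (c : Pt) (w : ℕ) (s σ : Bool) : Finset (Pt × Pt) :=
  {e ∈ GG E Wd Q c w s σ ×ˢ A | (e.2, e.1) ∈ E ∧ Wd (e.2, e.1) ≠ w ∧
    th E Wd (c, e.1) ≤ th E Wd (e.2, e.1)}

open Classical in
/-- bad pairs of a group -/
noncomputable def PB (A Q : Finset Pt) (M : ℕ) (c : Pt) (w : ℕ) (s σ : Bool) :
    Finset (Pt × Pt) :=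
  {e ∈ PP E Wd A Q c w s σ | M ≤ #{z ∈ GG E Wd Q c w s σ | (z, e.2) ∈ PP E Wd A Q c w s σ ∧
    Wd (e.2, z) = Wd (e.2, e.1)}}

variable {E Wd}

theorem mem_GG {Q : Finset Pt} {c : Pt} {w : ℕ} {s σ : Bool} {z : Pt} :
    z ∈ GG E Wd Q c w s σ ↔ z ∈ Q ∧ (c, z) ∈ E ∧ Wd (c, z) = w ∧ en E Wd (c, z) = s ∧
      sd (c, z) = σ := by
  unfold GG; simp

theorem mem_PP {A Q : Finset Pt} {c : Pt} {w : ℕ} {s σ : Bool} {e : Pt × Pt} :
    e ∈ PP E Wd A Q c w s σ ↔ (e.1 ∈ GG E Wd Q c w s σ ∧ e.2 ∈ A) ∧ (e.2, e.1) ∈ E ∧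
      Wd (e.2, e.1) ≠ w ∧ th E Wd (c, e.1) ≤ th E Wd (e.2, e.1) := by
  unfold PP; rw [mem_filter, mem_product]

theorem sum_Bool2 (f : Bool → Bool → ℝ) :
    ∑ x : Bool × Bool, f x.1 x.2 = f true true + f true false + f false true + f false false := by
  rw [Fintype.sum_prod_type]
  simp
  ring

open Classical in
theorem BB_le (hG : StGroup) {K lam : ℝ} {Q : Finset Pt} {W : Finset ℕ} {I : ℕ → Set ℝ}
    {R : ℕ → Finset Pt} (hJ : JView K lam Q W I R) (hlam : lam ^ 5 ≤ #Q) {A : Finset Pt}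
    (hE : ∀ e ∈ E, e.1 ∈ A ∧ e.2 ∈ Q ∧ Wd e ∈ W ∧ e.2 ∈ R (Wd e) ∧ e.1.1 ≠ e.2.1 ∧
      sl e.1 e.2 ∈ I (Wd e)) {L : ℝ} (hL : 1 ≤ L)
    (hA : ∀ z ∈ Q, ∀ w ∈ W, lam * #{a ∈ A | (a, z) ∈ E ∧ Wd (a, z) = w} ≤ L * #A)
    {M : ℕ} {D : ℝ} (hM : 1 ≤ M) (hD : 1 ≤ D) (hKL : K * L * D ^ 6 * #Q ≤ lam ^ 2 * M)
    (c : Pt) : D * #(BB E Wd A Q M c) ≤ 257 * #Q * #A := by
  have hconn := hJ.conn
  have hI : ∀ e ∈ E, sl e.1 e.2 ∈ I (Wd e) := fun e he => (hE e he).2.2.2.2.2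
  have hWm : ∀ e ∈ E, Wd e ∈ W := fun e he => (hE e he).2.2.1
  have hx : ∀ e ∈ E, e.1.1 ≠ e.2.1 := fun e he => (hE e he).2.2.2.2.1
  -- one group
  have hone : ∀ w ∈ W, ∀ s σ : Bool, D * #(PB E Wd A Q M c w s σ) ≤
      (253 * #(GG E Wd Q c w s σ) + #{p ∈ Q | sl c p ∈ I w}) * #A := by
    intro w hw s σ
    rcases (GG E Wd Q c w s σ).eq_empty_or_nonempty with h0 | ⟨z0, hz0⟩
    · have h1 : PB E Wd A Q M c w s σ = ∅ := by
        rw [Finset.eq_empty_iff_forall_notMem]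
        intro e he
        have h2 := (mem_PP.1 (mem_filter.1 he).1).1.1
        rw [h0] at h2
        simp at h2
      rw [h1]
      simp only [card_empty, Nat.cast_zero, mul_zero]
      positivity
    · have hz0' := mem_GG.1 hz0
      have hm0 : mm E Wd w s ∈ I w := by
        have := mm_mem (Wd := Wd) hI hz0'.2.1 s
        rwa [hz0'.2.2.1] at this
      have := hG K lam Q W I R hJ hlam c w (mm E Wd w s) hw hm0 (GG E Wd Q c w s σ) A
        (by
          intro z hz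
          have h1 := mem_GG.1 hz
          have h2 := hI _ h1.2.1
          rw [h1.2.2.1] at h2
          exact ⟨h1.1, h2⟩)
        (by
          cases σ
          · right
            intro z hz
            have h1 := mem_GG.1 hz
            have h2 : ¬ c.1 < z.1 := of_decide_eq_false h1.2.2.2.2
            exact lt_of_le_of_ne (not_lt.1 h2) (hx _ h1.2.1).symm
          · left
            intro z hz
            exact of_decide_eq_true (mem_GG.1 hz).2.2.2.2)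
        (PP E Wd A Q c w s σ) (fun e => Wd (e.2, e.1))
        (by
          intro e he
          obtain ⟨⟨h1, h2⟩, h3, h4, h5⟩ := mem_PP.1 he
          obtain ⟨g1, g2, g3, g4, g5⟩ := mem_GG.1 h1
          refine ⟨h1, h2, hWm _ h3, h4, (hE _ h3).2.2.2.1, (hx _ h3).symm, ?_⟩
          have h6 := exact_of_le hconn hWm hI hx g2 h3 h5
          rwa [g3, g4] at h6)
        L hL
        (by
          intro z hz w' hw'
          refine le_trans ?_ (hA z (mem_GG.1 hz).1 w' hw')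
          have h1 : #{b ∈ A | (z, b) ∈ PP E Wd A Q c w s σ ∧ Wd (b, z) = w'} ≤
              #{a ∈ A | (a, z) ∈ E ∧ Wd (a, z) = w'} := by
            apply card_le_card
            intro b hb
            obtain ⟨h1, h2, h3⟩ := mem_filter.1 hb
            exact mem_filter.2 ⟨h1, (mem_PP.1 h2).2.1, h3⟩
          have h2 : (#{b ∈ A | (z, b) ∈ PP E Wd A Q c w s σ ∧ Wd (b, z) = w'} : ℝ) ≤
              #{a ∈ A | (a, z) ∈ E ∧ Wd (a, z) = w'} := by exact_mod_cast h1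
          exact mul_le_mul_of_nonneg_left h2 (by linarith [hJ.one]))
        M D hM hD hKL
      exact this
  -- the groups cover the bad pairs
  have hcov : #(BB E Wd A Q M c) ≤ ∑ w ∈ W, ∑ x : Bool × Bool, #(PB E Wd A Q M c w x.1 x.2) := by
    rw [← sum_product' W univ (fun w (x : Bool × Bool) => #(PB E Wd A Q M c w x.1 x.2))]
    have h1 : BB E Wd A Q M c ⊆
        (W ×ˢ (univ : Finset (Bool × Bool))).biUnion
          (fun y => PB E Wd A Q M c y.1 y.2.1 y.2.2) := by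
      intro e he
      unfold BB at he
      rw [mem_filter, mem_product] at he
      obtain ⟨⟨h1, h2⟩, h3, h4, h5, h6, h7⟩ := he
      rw [mem_biUnion]
      refine ⟨(Wd (c, e.1), en E Wd (c, e.1), sd (c, e.1)),
        mem_product.2 ⟨hWm _ h3, mem_univ _⟩, ?_⟩
      have hPP : ∀ z ∈ Q, (c, z) ∈ E → (e.2, z) ∈ E → Wd (c, z) = Wd (c, e.1) →
          Wd (e.2, z) = Wd (e.2, e.1) → en E Wd (c, z) = en E Wd (c, e.1) →
          sd (c, z) = sd (c, e.1) → th E Wd (c, z) ≤ th E Wd (e.2, z) →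
          z ∈ GG E Wd Q c (Wd (c, e.1)) (en E Wd (c, e.1)) (sd (c, e.1)) ∧
          (z, e.2) ∈ PP E Wd A Q c (Wd (c, e.1)) (en E Wd (c, e.1)) (sd (c, e.1)) := by
        intro z hz a1 a2 a3 a4 a5 a6 a7
        have hg : z ∈ GG E Wd Q c (Wd (c, e.1)) (en E Wd (c, e.1)) (sd (c, e.1)) :=
          mem_GG.2 ⟨hz, a1, a3, a5, a6⟩
        refine ⟨hg, mem_PP.2 ⟨⟨hg, h2⟩, a2, ?_, a7⟩⟩
        simp only
        rw [a4]; exact h5.symm
      have hself := hPP e.1 h1 h3 h4 rfl rfl rfl rfl h6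
      unfold PB
      rw [mem_filter]
      refine ⟨hself.2, h7.trans (card_le_card ?_)⟩
      intro z hz
      obtain ⟨k1, k2, k3, k4, k5, k6, k7, k8⟩ := mem_filter.1 hz
      have := hPP z k1 k2 k3 k4 k5 k6 k7 k8
      exact mem_filter.2 ⟨this.1, this.2, k5⟩
    exact (card_le_card h1).trans card_biUnion_le
  have hcov' : (#(BB E Wd A Q M c) : ℝ) ≤
      ∑ w ∈ W, ∑ x : Bool × Bool, (#(PB E Wd A Q M c w x.1 x.2) : ℝ) := by exact_mod_cast hcov
  -- sums
  have hsumG : ∑ w ∈ W, ∑ x : Bool × Bool, #(GG E Wd Q c w x.1 x.2) ≤ #Q := by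
    rw [← sum_product' W univ (fun w (x : Bool × Bool) => #(GG E Wd Q c w x.1 x.2)),
      ← card_biUnion]
    · apply card_le_card
      intro z hz
      obtain ⟨y, _, hy⟩ := mem_biUnion.1 hz
      exact (mem_GG.1 hy).1
    · intro y _ y' _ hne
      simp only [Function.onFun]
      rw [Finset.disjoint_left]
      intro z hz hz'
      apply hne
      obtain ⟨_, _, a1, a2, a3⟩ := mem_GG.1 hz
      obtain ⟨_, _, b1, b2, b3⟩ := mem_GG.1 hz'
      exact Prod.ext (a1.symm.trans b1) (Prod.ext (a2.symm.trans b2) (a3.symm.trans b3))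
  have hsumS : ∑ w ∈ W, #{p ∈ Q | sl c p ∈ I w} ≤ #Q := by
    rw [← card_biUnion]
    · apply card_le_card
      intro z hz
      obtain ⟨y, _, hy⟩ := mem_biUnion.1 hz
      exact (mem_filter.1 hy).1
    · intro w hw w' hw' hne
      simp only [Function.onFun]
      rw [Finset.disjoint_left]
      intro z hz hz'
      exact Set.disjoint_left.1 (hJ.disj w hw w' hw' hne) (mem_filter.1 hz).2 (mem_filter.1 hz').2
  have hsumG' : ∑ w ∈ W, ∑ x : Bool × Bool, (#(GG E Wd Q c w x.1 x.2) : ℝ) ≤ #Q := by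
    exact_mod_cast hsumG
  have hsumS' : ∑ w ∈ W, (#{p ∈ Q | sl c p ∈ I w} : ℝ) ≤ #Q := by exact_mod_cast hsumS
  have hD0 : 0 ≤ D := by linarith
  calc D * #(BB E Wd A Q M c)
      ≤ D * ∑ w ∈ W, ∑ x : Bool × Bool, (#(PB E Wd A Q M c w x.1 x.2) : ℝ) :=
        mul_le_mul_of_nonneg_left hcov' hD0
    _ = ∑ w ∈ W, ∑ x : Bool × Bool, D * (#(PB E Wd A Q M c w x.1 x.2) : ℝ) := by
        rw [mul_sum]
        exact sum_congr rfl fun w _ => by rw [mul_sum]
    _ ≤ ∑ w ∈ W, ∑ x : Bool × Bool, (253 * #(GG E Wd Q c w x.1 x.2) +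
          #{p ∈ Q | sl c p ∈ I w}) * (#A : ℝ) :=
        sum_le_sum fun w hw => sum_le_sum fun x _ => hone w hw x.1 x.2
    _ = (253 * ∑ w ∈ W, ∑ x : Bool × Bool, (#(GG E Wd Q c w x.1 x.2) : ℝ) +
          4 * ∑ w ∈ W, (#{p ∈ Q | sl c p ∈ I w} : ℝ)) * #A := by
        rw [mul_sum, mul_sum, ← sum_add_distrib, sum_mul]
        refine sum_congr rfl fun w _ => ?_
        rw [← sum_mul, sum_add_distrib, mul_sum, sum_const, card_univ]
        simp
    _ ≤ (253 * #Q + 4 * #Q) * #A := by gcongr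
    _ = 257 * #Q * #A := by ring

end

end Vale.Agent.P065.H650
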