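import Vale.Agent.P065.UB.NormDrop.Defs
import Vale.Agent.P065.UB.H992.NCCore
import Vale.Agent.P065.UB.Mach.Defs

/-!
# P065, upper bound, [DIM], block [RUN0] (helper650; plan: helper549's note 19477 (B))

If the dimension condition fails in one square of the chart, the points of the square contain a set
`S` all of whose dense subsets have almost the same area as `S` in the plane: condition (NC) of
helper882's [NORMDROP].
-/

set_option autoImplicit false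

namespace Vale.Agent.P065.H650

open Finset Vale.Agent.P065.UB Vale.Agent.P065.UB.NormDrop
open Vale.Agent.P065.UB.H822 (det3 few_squares det_chart)
open Vale.Agent.P065.UB.H992 (nccore)
open Vale.Agent.P065.UB.H616 (chU chV chX chY)
open Vale.Agent.P065.UB.H415 (cf)
open Vale.Agent.P065.UB.MC Vale.Agent.P065.H183

/-- **LEMMA S**, applied: every dense subset has a triangle of area `≥ δ² n² / (96 K² M)` -/
theorem big_tri {α : Type*} (P : Finset α) (f g : α → ℝ) {K n m δ r x0 y0 M N : ℝ} (hK : 1 ≤ K)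
    (hn : 1 ≤ n) (hm : 0 < m) (hδ : 0 < δ) (hδr : δ ≤ r) (hM : 1 ≤ M)
    (hbox : ∀ p ∈ P, |f p - x0| ≤ 2 * r ∧ |g p - y0| ≤ 2 * r)
    (hcell : ∀ s t : ℝ, (#{p ∈ P | |f p - s| ≤ δ ∧ |g p - t| ≤ δ} : ℝ) ≤ K * m)
    (hN : n ^ 2 * m ≤ K * N) (hr : 240 * K ^ 2 * M * r ≤ n ^ 2 * δ) :
    ∀ T ⊆ P, N ≤ M * #T → ∃ p ∈ T, ∃ q ∈ T, ∃ s ∈ T,
      δ ^ 2 * n ^ 2 / (96 * K ^ 2 * M) ≤ |det3 (f p) (g p) (f q) (g q) (f s) (g s)| := by
  intro T hT hNT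
  by_contra hcon
  push Not at hcon
  set A0 := δ ^ 2 * n ^ 2 / (96 * K ^ 2 * M) with hA0
  have hKM : 0 < 96 * K ^ 2 * M := by positivity
  have hbf : ∀ p ∈ T, ∀ q ∈ T, |f q - f p| ≤ 4 * r := by
    intro p hp q hq
    have h1 := (hbox p (hT hp)).1
    have h2 := (hbox q (hT hq)).1
    have h3 : f q - f p = (f q - x0) - (f p - x0) := by ring
    rw [h3]
    exact (abs_sub _ _).trans (by linarith)
  have hbg : ∀ p ∈ T, ∀ q ∈ T, |g q - g p| ≤ 4 * r := by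
    intro p hp q hq
    have h1 := (hbox p (hT hp)).2
    have h2 := (hbox q (hT hq)).2
    have h3 : g q - g p = (g q - y0) - (g p - y0) := by ring
    rw [h3]
    exact (abs_sub _ _).trans (by linarith)
  have h1 := few_squares T f g (d := δ) (r := 4 * r) (al := A0) ⌊K * m⌋₊ hδ (by positivity)
    (by linarith) hbf hbg
    (by
      intro s t
      apply Nat.le_floor
      refine le_trans ?_ (hcell (s + δ / 2) (t + δ / 2))
      have : #{z ∈ T | s ≤ f z ∧ f z ≤ s + δ ∧ t ≤ g z ∧ g z ≤ t + δ} ≤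
          #{p ∈ P | |f p - (s + δ / 2)| ≤ δ ∧ |g p - (t + δ / 2)| ≤ δ} := by
        apply card_le_card
        intro z hz
        obtain ⟨h1, h2, h3, h4, h5⟩ := mem_filter.1 hz
        refine mem_filter.2 ⟨hT h1, ?_, ?_⟩
        · rw [abs_le]; constructor <;> linarith
        · rw [abs_le]; constructor <;> linarith
      exact_mod_cast this)
    (fun p hp q hq z hz => (hcon p hp q hq z hz).le)
  have h2 : (⌊K * m⌋₊ : ℝ) ≤ K * m := Nat.floor_le (by positivity)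
  have h3 : A0 / δ ^ 2 = n ^ 2 / (96 * K ^ 2 * M) := by
    rw [hA0]; field_simp
  have h4 : 4 * r / δ + 1 ≤ n ^ 2 / (48 * K ^ 2 * M) := by
    have h5 : 4 * r / δ + 1 ≤ 5 * r / δ := by
      have : 1 ≤ r / δ := by rwa [le_div_iff₀ hδ, one_mul]
      have e1 : 4 * r / δ = 4 * (r / δ) := by ring
      have e2 : 5 * r / δ = 5 * (r / δ) := by ring
      rw [e1, e2]; linarith
    refine h5.trans ?_
    rw [div_le_div_iff₀ hδ (by positivity)]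
    nlinarith
  have h5 : A0 / δ ^ 2 + 4 * r / δ + 1 ≤ 3 * (n ^ 2 / (96 * K ^ 2 * M)) := by
    have e : n ^ 2 / (48 * K ^ 2 * M) = 2 * (n ^ 2 / (96 * K ^ 2 * M)) := by
      field_simp; ring
    rw [e] at h4
    rw [h3]; linarith
  have h6 : (0 : ℝ) ≤ A0 / δ ^ 2 + 4 * r / δ + 1 := by
    have : 0 ≤ r := hδ.le.trans hδr
    positivity
  have h7 : (#T : ℝ) ≤ 24 * (K * m) * (3 * (n ^ 2 / (96 * K ^ 2 * M))) := by
    refine h1.trans ?_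
    gcongr
  have h8 : K * (M * (24 * (K * m) * (3 * (n ^ 2 / (96 * K ^ 2 * M))))) = 3 / 4 * (n ^ 2 * m) := by
    field_simp; ring
  have h9 : n ^ 2 * m ≤ 3 / 4 * (n ^ 2 * m) := by
    calc n ^ 2 * m ≤ K * N := hN
      _ ≤ K * (M * #T) := by gcongr
      _ ≤ K * (M * (24 * (K * m) * (3 * (n ^ 2 / (96 * K ^ 2 * M))))) := by gcongr
      _ = _ := h8
  have h10 : 0 < n ^ 2 * m := by positivity
  linarith

/-- the failure of the dimension condition: many squares -/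
theorem exp_one {q : ℕ} (hq : 2 ≤ q) {n δ r B : ℝ} (hn : 1 ≤ n) (hδ : 0 < δ) (hδr : δ ≤ r)
    (hB : 1 ≤ B) (hdim : r ^ q < n ^ (q + 1) * δ ^ q) (hBn : B ^ 2 ≤ n) : B * r ≤ n ^ 2 * δ := by
  by_contra hcon
  push Not at hcon
  have hr : 0 < r := hδ.trans_le hδr
  have h1 : (n ^ 2 * δ) ^ q < (B * r) ^ q := pow_lt_pow_left₀ hcon (by positivity) (by omega)
  have h2 : (B * r) ^ q < B ^ q * (n ^ (q + 1) * δ ^ q) := by
    rw [mul_pow]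
    exact mul_lt_mul_of_pos_left hdim (by positivity)
  have h3 : B ^ q ≤ n ^ (q - 1) := by
    calc B ^ q ≤ B ^ (2 * (q - 1)) := pow_le_pow_right₀ hB (by omega)
      _ = (B ^ 2) ^ (q - 1) := by rw [pow_mul]
      _ ≤ n ^ (q - 1) := pow_le_pow_left₀ (by positivity) hBn _
  have h4 : B ^ q * (n ^ (q + 1) * δ ^ q) ≤ n ^ (q - 1) * (n ^ (q + 1) * δ ^ q) := by gcongr
  have h5 : n ^ (q - 1) * (n ^ (q + 1) * δ ^ q) = (n ^ 2 * δ) ^ q := by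
    rw [mul_pow, ← pow_mul, ← mul_assoc, ← pow_add]
    congr 2
    omega
  linarith

theorem exp_two {q : ℕ} {n δ r B κ ω : ℝ} (hn : 1 ≤ n) (hδ : 0 < δ) (hr : 0 < r)
    (hB : 1 ≤ B) (hκ : 0 ≤ κ) (hdim : r ^ q < n ^ (q + 1) * δ ^ q) (hq : q ≠ 0)
    (hω : ω = min (δ ^ 2 * n ^ 2 / (B * r ^ 2)) 1)
    (h : (2 ^ 29 * κ * B ^ 4) ^ q * n ^ 8 ≤ 1) : 2 ^ 29 * κ ≤ ω ^ 4 := by
  by_contra hcon
  push Not at hcon
  have hn0 : 0 < n := by linarith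
  have hB0 : 0 < B := by linarith
  rcases le_total (δ ^ 2 * n ^ 2 / (B * r ^ 2)) 1 with h1 | h1
  · rw [min_eq_left h1] at hω
    set ξ := δ * n / r with hξ
    have hξ0 : 0 < ξ := by positivity
    have h2 : ω = ξ ^ 2 / B := by
      rw [hω, hξ]; field_simp
    have h3 : ξ ^ 8 < 2 ^ 29 * κ * B ^ 4 := by
      rw [h2, div_pow, div_lt_iff₀ (by positivity)] at hcon
      calc ξ ^ 8 = (ξ ^ 2) ^ 4 := by ring
        _ < 2 ^ 29 * κ * B ^ 4 := hcon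
    have h4 : 1 < ξ ^ q * n := by
      rw [hξ, div_pow, div_mul_eq_mul_div, lt_div_iff₀ (by positivity), one_mul, mul_pow]
      calc r ^ q < n ^ (q + 1) * δ ^ q := hdim
        _ = _ := by ring
    have h5 : 1 < (ξ ^ q * n) ^ 8 := one_lt_pow₀ h4 (by norm_num)
    have h6 : (ξ ^ q * n) ^ 8 = (ξ ^ 8) ^ q * n ^ 8 := by
      rw [mul_pow, ← pow_mul, ← pow_mul, mul_comm q 8]
    have h7 : (ξ ^ 8) ^ q * n ^ 8 ≤ (2 ^ 29 * κ * B ^ 4) ^ q * n ^ 8 := by gcongr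
    linarith
  · rw [min_eq_right h1] at hω
    rw [hω, one_pow] at hcon
    have h2 : 1 < 2 ^ 29 * κ * B ^ 4 := by
      have h3 : 1 ≤ B ^ 4 := one_le_pow₀ hB
      nlinarith
    have h3 : 1 < (2 ^ 29 * κ * B ^ 4) ^ q := one_lt_pow₀ h2 hq
    have h4 : 1 ≤ n ^ 8 := one_le_pow₀ hn
    nlinarith

/-- the size of `P \ S` does not depend on the instance of decidable equality -/
theorem card_sdiff_inst {α : Type*} (i j : DecidableEq α) (P S : Finset α) :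
    (@SDiff.sdiff _ (@Finset.instSDiff α i) P S).card =
      (@SDiff.sdiff _ (@Finset.instSDiff α j) P S).card := by
  rw [Subsingleton.elim i j]

open Classical in
/-- **[RUN0]**, raw form with the two arithmetic hypotheses -/
theorem run0_core {e : ℕ} {K Ka n m δ r M κ x0 y0 b c d k0 : ℝ} (hK : 1 ≤ K)
    (hKa : 0 ≤ Ka) (hn : 1 ≤ n) (hm : 0 < m) (hδ : 0 < δ) (hδr : δ ≤ r) {Q : Finset Pt} {W : Finset ℕ}
    {R : ℕ → Finset Pt} {P : Finset Pt} (hPQ : P ⊆ Q) (f g : Pt → ℝ)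
    (hbox : ∀ p ∈ P, |f p - x0| ≤ 2 * r ∧ |g p - y0| ≤ 2 * r)
    (hcell : ∀ s t : ℝ, (#{p ∈ P | |f p - s| ≤ δ ∧ |g p - t| ≤ δ} : ℝ) ≤ K * m)
    (hmass : n ^ 2 * m ≤ K ^ e * #P) (hQ1 : (#Q : ℝ) ≤ K * n ^ 2 * m)
    (hQ2 : n ^ 2 * m ≤ K * #Q) (hr1 : 240 * K ^ 2 * M * r ≤ n ^ 2 * δ)
    (hl : ∀ p ∈ P, 0 < b * f p + c * g p + d) (hk0 : 0 < k0)
    (hdt : ∀ p ∈ P, ∀ p' ∈ P, ∀ s ∈ P, |dt p p' s| =
      k0 * |det3 (f p) (g p) (f p') (g p') (f s) (g s)| /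
        ((b * f p + c * g p + d) * (b * f p' + c * g p' + d) * (b * f s + c * g s + d)))
    (hact : ∀ p ∈ P, n ≤ Ka * #{w ∈ W | p ∈ R w})
    (hM : 2 * K ^ (e + 1) ≤ M)
    (hκ : 2 ^ 29 * κ ≤ (min (δ ^ 2 * n ^ 2 / (96 * K ^ 2 * M * r ^ 2)) 1) ^ 4) :
    ∃ S ⊆ P, ∃ al > 0, (∀ p ∈ S, ∀ p' ∈ S, ∀ s ∈ S, |dt p p' s| ≤ al) ∧ NC M κ al #Q S ∧
      n * #Q ≤ 2 * K ^ (e + 1) * Ka * ∑ w ∈ W, (#(R w ∩ S) : ℝ) := by
  have hK1 : 1 ≤ K ^ (e + 1) := one_le_pow₀ hK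
  have hM1 : 1 ≤ M := by linarith
  have hr0 : 0 < r := hδ.trans_le hδr
  have hN0 : (0 : ℝ) < #Q := by
    have : 0 < n ^ 2 * m := by positivity
    by_contra h
    have h1 : (#Q : ℝ) ≤ 0 := not_lt.1 h
    have h2 : K * #Q ≤ 0 := mul_nonpos_of_nonneg_of_nonpos (by linarith) h1
    linarith
  have htri := big_tri P f g hK hn hm hδ hδr hM1 hbox hcell hQ2 hr1
  -- the area
  set A1 := δ ^ 2 * n ^ 2 / (96 * K ^ 2 * M) with hA1
  set A0 := min A1 (r ^ 2) with hA0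
  have hA1p : 0 < A1 := by positivity
  have hA0p : 0 < A0 := lt_min hA1p (by positivity)
  have hA0r : A0 ≤ r ^ 2 := min_le_right _ _
  set τ := A0 / (256 * r ^ 2) with hτ
  have hτ0 : 0 < τ := by positivity
  have hτ1 : τ ≤ 1 / 2 := by
    rw [hτ, div_le_iff₀ (by positivity)]
    nlinarith
  have hτA : 128 * τ * r ^ 2 < A0 := by
    have : 128 * τ * r ^ 2 = A0 / 2 := by rw [hτ]; field_simp; norm_num
    rw [this]; linarith
  obtain ⟨S, hSP, hSc0, al, hal, hSal, hSnc⟩ := nccore P f g (x0 := x0) (y0 := y0) (b := b)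
    (c := c) (d := d) (k0 := k0) (A0 := A0) (τ := τ) (N := #Q) (M := M) hr0 hbox hl
    (by
      intro T hT hNT
      obtain ⟨p, hp, q', hq', s, hs, h⟩ := htri T hT hNT
      exact ⟨p, hp, q', hq', s, hs, (min_le_left _ _).trans h⟩)
    hτ0 hτ1 hτA hk0 hN0 (by linarith)
  have hSc : M * (#(P \ S) : ℝ) < #Q := by
    exact lt_of_eq_of_lt (congrArg (fun t : ℕ => M * (t : ℝ)) (card_sdiff_inst _ _ P S)) hSc0
  refine ⟨S, hSP, al, hal, ?_, ?_, ?_⟩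
  · intro p hp p' hp' s hs
    rw [hdt p (hSP hp) p' (hSP hp') s (hSP hs)]
    exact hSal p hp p' hp' s hs
  · intro T hT hNT
    obtain ⟨p, hp, p', hp', s, hs, h⟩ := hSnc T hT hNT
    refine ⟨p, hp, p', hp', s, hs, ?_⟩
    rw [hdt p (hSP (hT hp)) p' (hSP (hT hp')) s (hSP (hT hs))]
    refine le_trans ?_ h
    apply mul_le_mul_of_nonneg_right _ hal.le
    set ω := min (δ ^ 2 * n ^ 2 / (96 * K ^ 2 * M * r ^ 2)) 1 with hω
    have h1 : 2 ^ 29 * κ ≤ ω ^ 4 := hκ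
    have h2 : A0 = ω * r ^ 2 := by
      rw [hA0, hω, min_mul_of_nonneg _ _ (by positivity : (0:ℝ) ≤ r ^ 2), one_mul, hA1]
      congr 1
      field_simp
    have h3 : A0 * τ ^ 3 / (32 * r ^ 2) = ω ^ 4 / 2 ^ 29 := by
      have e1 : ω * r ^ 2 / (256 * r ^ 2) = ω / 256 := by
        have : r ≠ 0 := hr0.ne'
        field_simp
      have e2 : ω * r ^ 2 * (ω / 256) ^ 3 / (32 * r ^ 2) = ω * (ω / 256) ^ 3 / 32 := by
        have : r ≠ 0 := hr0.ne'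
        field_simp
      rw [hτ, h2, e1, e2]
      ring
    rw [h3, le_div_iff₀ (by positivity)]
    linarith
  · -- activity
    have h1 : (#P : ℝ) = #S + #(P \ S) := by
      have := card_sdiff_add_card_eq_card hSP
      have h2 : #P = #S + #(P \ S) := by omega
      exact_mod_cast h2
    have h2 : (#Q : ℝ) ≤ K ^ (e + 1) * #P := by
      calc (#Q : ℝ) ≤ K * n ^ 2 * m := hQ1
        _ = K * (n ^ 2 * m) := by ring
        _ ≤ K * (K ^ e * #P) := by gcongr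
        _ = K ^ (e + 1) * #P := by ring
    have h3 : K ^ (e + 1) * #(P \ S) ≤ (#Q : ℝ) / 2 := by
      have h4 : 2 * K ^ (e + 1) * #(P \ S) ≤ M * (#(P \ S) : ℝ) := by gcongr
      linarith
    have h4 : (#Q : ℝ) ≤ 2 * K ^ (e + 1) * #S := by
      rw [h1, mul_add] at h2
      linarith
    have h5 : ∑ w ∈ W, #(R w ∩ S) = ∑ p ∈ S, #{w ∈ W | p ∈ R w} := by
      have h6 := sum_card_bipartiteAbove_eq_sum_card_bipartiteBelow (s := W) (t := S)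
        (fun w p => p ∈ R w)
      unfold bipartiteAbove bipartiteBelow at h6
      rw [← h6]
      refine sum_congr rfl fun w _ => ?_
      congr 1
      ext p
      simp only [mem_inter, mem_filter]
      tauto
    have h6 : n * #S ≤ Ka * ∑ w ∈ W, (#(R w ∩ S) : ℝ) := by
      have h7 : (∑ w ∈ W, (#(R w ∩ S) : ℝ)) = ∑ p ∈ S, (#{w ∈ W | p ∈ R w} : ℝ) := by
        exact_mod_cast h5
      rw [h7, mul_sum]
      calc n * #S = ∑ _p ∈ S, n := by rw [sum_const, nsmul_eq_mul, mul_comm]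
        _ ≤ ∑ p ∈ S, Ka * (#{w ∈ W | p ∈ R w} : ℝ) := sum_le_sum fun p hp => hact p (hSP hp)
    calc n * #Q ≤ n * (2 * K ^ (e + 1) * #S) := by gcongr
      _ = 2 * K ^ (e + 1) * (n * #S) := by ring
      _ ≤ 2 * K ^ (e + 1) * (Ka * ∑ w ∈ W, (#(R w ∩ S) : ℝ)) := by gcongr
      _ = _ := by ring

open Classical in
/-- **[RUN0]**, raw form -/
theorem run0_raw {q e : ℕ} (hq : 2 ≤ q) {K Ka n m δ r M κ x0 y0 b c d k0 : ℝ} (hK : 1 ≤ K)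
    (hKa : 0 ≤ Ka) (hn : 1 ≤ n) (hm : 0 < m) (hδ : 0 < δ) (hδr : δ ≤ r) {Q : Finset Pt}
    {W : Finset ℕ} {R : ℕ → Finset Pt} {P : Finset Pt} (hPQ : P ⊆ Q) (f g : Pt → ℝ)
    (hbox : ∀ p ∈ P, |f p - x0| ≤ 2 * r ∧ |g p - y0| ≤ 2 * r)
    (hcell : ∀ s t : ℝ, (#{p ∈ P | |f p - s| ≤ δ ∧ |g p - t| ≤ δ} : ℝ) ≤ K * m)
    (hmass : n ^ 2 * m ≤ K ^ e * #P) (hQ1 : (#Q : ℝ) ≤ K * n ^ 2 * m)
    (hQ2 : n ^ 2 * m ≤ K * #Q) (hdim : r ^ q < n ^ (q + 1) * δ ^ q)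
    (hl : ∀ p ∈ P, 0 < b * f p + c * g p + d) (hk0 : 0 < k0)
    (hdt : ∀ p ∈ P, ∀ p' ∈ P, ∀ s ∈ P, |dt p p' s| =
      k0 * |det3 (f p) (g p) (f p') (g p') (f s) (g s)| /
        ((b * f p + c * g p + d) * (b * f p' + c * g p' + d) * (b * f s + c * g s + d)))
    (hact : ∀ p ∈ P, n ≤ Ka * #{w ∈ W | p ∈ R w}) (hKn : (240 * K ^ 2 * M) ^ 2 ≤ n)
    (hM : 2 * K ^ (e + 1) ≤ M) (hκ0 : 0 ≤ κ)
    (hκ : (2 ^ 29 * κ * (96 * K ^ 2 * M) ^ 4) ^ q * n ^ 8 ≤ 1) :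
    ∃ S ⊆ P, ∃ al > 0, (∀ p ∈ S, ∀ p' ∈ S, ∀ s ∈ S, |dt p p' s| ≤ al) ∧ NC M κ al #Q S ∧
      n * #Q ≤ 2 * K ^ (e + 1) * Ka * ∑ w ∈ W, (#(R w ∩ S) : ℝ) := by
  have hK1 : 1 ≤ K ^ (e + 1) := one_le_pow₀ hK
  have hM1 : 1 ≤ M := by linarith
  have hB1 : 1 ≤ 240 * K ^ 2 * M := by
    have : 1 ≤ K ^ 2 := one_le_pow₀ hK
    nlinarith
  have hB2 : 1 ≤ 96 * K ^ 2 * M := by
    have : 1 ≤ K ^ 2 := one_le_pow₀ hK
    nlinarith
  exact run0_core hK hKa hn hm hδ hδr hPQ f g hbox hcell hmass hQ1 hQ2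
    (exp_one hq hn hδ hδr hB1 hdim hKn) hl hk0 hdt hact hM
    (exp_two (q := q) hn hδ (hδ.trans_le hδr) hB2 hκ0 hdim (by omega) rfl hκ)

/-- plane area and chart area -/
theorem dt_chart (m0 : ℝ) (c p q s : Pt) (hp : chV m0 c p ≠ 0) (hq : chV m0 c q ≠ 0)
    (hs : chV m0 c s ≠ 0) : dt p q s = -(chV m0 c p * chV m0 c q * chV m0 c s *
      det3 (chX m0 c p) (chY m0 c p) (chX m0 c q) (chY m0 c q) (chX m0 c s) (chY m0 c s)) := by
  have h1 : dt p q s = det3 (chU c p) (chV m0 c p) (chU c q) (chV m0 c q) (chU c s)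
      (chV m0 c s) := by
    unfold dt det3 chU chV ht
    ring
  rw [h1, det_chart hp hq hs]
  rfl

/-- linear change of the class functions -/
theorem det3_class (m0 : ℝ) (c o1 o2 o3 p q s : Pt) :
    det3 (fX m0 c o1 p) (fY m0 c o1 o2 o3 p) (fX m0 c o1 q) (fY m0 c o1 o2 o3 q)
      (fX m0 c o1 s) (fY m0 c o1 o2 o3 s) =
    -(cc o1 o2 o3 * (o2.1 - o1.1)) *
      det3 (chX m0 c p) (chY m0 c p) (chX m0 c q) (chY m0 c q) (chX m0 c s) (chY m0 c s) := by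
  unfold det3 fX fY cf chU
  ring

open Classical in
/-- **[RUN0]**, for one heavy box -/
theorem run0_box {e : ℕ} {K K' lam M κ x y r : ℝ} {Q : Finset Pt} {W : Finset ℕ}
    {I : ℕ → Set ℝ} {R : ℕ → Finset Pt} (hV : JView K' lam Q W I R) (hK : 1 ≤ K)
    {c : Pt} {w0 : ℕ} {m0 : ℝ} {o1 o2 o3 : Pt} {F : Finset (Pt × Pt)} {Wd : Pt × Pt → ℕ} {δ : ℝ}
    (h : Mach K lam Q W I R c w0 m0 o1 o2 o3 F Wd δ)
    (hdegq : ∀ e ∈ F, (#Q : ℝ) ≤ K * lam * #{a ∈ F.image Prod.fst | (a, e.2) ∈ F})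
    (hδr : δ ≤ r) (hbig : (#Q : ℝ) < K ^ e * #{p ∈ F.image Prod.snd |
      |fX m0 c o1 p - x| ≤ 2 * r ∧ |fY m0 c o1 o2 o3 p - y| ≤ 2 * r})
    (hr1 : 240 * K ^ 2 * M * r ≤ lam ^ 2 * δ) (hM : 2 * K ^ (e + 1) ≤ M)
    (hκ : 2 ^ 29 * κ ≤ (min (δ ^ 2 * lam ^ 2 / (96 * K ^ 2 * M * r ^ 2)) 1) ^ 4) :
    ∃ S ⊆ Q, ∃ al > 0, (∀ p ∈ S, ∀ p' ∈ S, ∀ s ∈ S, |dt p p' s| ≤ al) ∧ NC M κ al #Q S ∧
      lam * #Q ≤ 2 * K ^ (e + 3) * ∑ w ∈ W, (#(R w ∩ S) : ℝ) := by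
  have hlam := hV.one
  have hlam0 : 0 < lam := by linarith
  have hQ0 : (0 : ℝ) < #Q := by
    have : (0 : ℝ) < #Q := by
      have h1 : Q.Nonempty := ⟨c, h.cQ⟩
      exact_mod_cast h1.card_pos
    exact this
  set P := {p ∈ F.image Prod.snd | |fX m0 c o1 p - x| ≤ 2 * r ∧
      |fY m0 c o1 o2 o3 p - y| ≤ 2 * r} with hP
  have hPF : ∀ p ∈ P, ∃ e ∈ F, e.2 = p := fun p hp => mem_image.1 (mem_filter.1 hp).1
  have hPQ : P ⊆ Q := by
    intro p hp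
    obtain ⟨e', he', rfl⟩ := hPF p hp
    exact (h.fl e' he').qQ
  have hPne : P.Nonempty := by
    rw [← card_pos]
    by_contra h0
    have h1 : #P = 0 := by omega
    rw [h1] at hbig
    simp only [Nat.cast_zero, mul_zero] at hbig
    linarith
  obtain ⟨p0, hp0⟩ := hPne
  obtain ⟨e0, he0, -⟩ := hPF p0 hp0
  have x12 := h.x12 hV he0
  have x13 := h.x13 hV he0
  have x23 := h.x23 hV he0
  have hcc : cc o1 o2 o3 ≠ 0 := by
    unfold cc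
    exact div_ne_zero (sub_ne_zero.2 x13.symm) (sub_ne_zero.2 x23)
  have h21 : o2.1 - o1.1 ≠ 0 := sub_ne_zero.2 x12.symm
  -- sign of the heights
  obtain ⟨σ, hσ2, hσ⟩ : ∃ σ : ℝ, |σ| = 1 ∧ ∀ p ∈ P, 0 < σ * chV m0 c p := by
    rcases h.above with h1 | h1
    · refine ⟨1, by simp, ?_⟩
      intro p hp
      obtain ⟨e', he', rfl⟩ := hPF p hp
      unfold chV
      linarith [h1 e' he']
    · refine ⟨-1, by simp, ?_⟩
      intro p hp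
      obtain ⟨e', he', rfl⟩ := hPF p hp
      unfold chV
      linarith [h1 e' he']
  have hσ0 : σ ≠ 0 := by
    intro h0; rw [h0] at hσ2; simp at hσ2
  have hσσ : σ * σ = 1 := by
    have : |σ| * |σ| = 1 := by rw [hσ2]; ring
    rwa [abs_mul_abs_self] at this
  have hv0 : ∀ p ∈ P, chV m0 c p ≠ 0 := by
    intro p hp h0
    have := hσ p hp
    rw [h0] at this; simp at this
  have hl : ∀ p ∈ P, σ / (o2.1 - o1.1) * fX m0 c o1 p +
      -(σ / (cc o1 o2 o3 * (o2.1 - o1.1))) * fY m0 c o1 o2 o3 p + 0 =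
      1 / (σ * chV m0 c p) := by
    intro p hp
    have h1 := hv0 p hp
    have h2 : 1 / (σ * chV m0 c p) = σ / chV m0 c p := by
      rw [div_eq_div_iff (mul_ne_zero hσ0 h1) h1]
      linear_combination (-(chV m0 c p)) * hσσ
    rw [h2]
    unfold fX fY cf chX chY chU
    field_simp
    ring
  have hlpos : ∀ p ∈ P, 0 < σ / (o2.1 - o1.1) * fX m0 c o1 p +
      -(σ / (cc o1 o2 o3 * (o2.1 - o1.1))) * fY m0 c o1 o2 o3 p + 0 := by
    intro p hp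
    rw [hl p hp]
    exact one_div_pos.2 (hσ p hp)
  have hk : 0 < |cc o1 o2 o3 * (o2.1 - o1.1)| := abs_pos.2 (mul_ne_zero hcc h21)
  have hdt : ∀ p ∈ P, ∀ p' ∈ P, ∀ s ∈ P, |dt p p' s| =
      1 / |cc o1 o2 o3 * (o2.1 - o1.1)| *
        |det3 (fX m0 c o1 p) (fY m0 c o1 o2 o3 p) (fX m0 c o1 p') (fY m0 c o1 o2 o3 p')
          (fX m0 c o1 s) (fY m0 c o1 o2 o3 s)| /
        ((σ / (o2.1 - o1.1) * fX m0 c o1 p +
          -(σ / (cc o1 o2 o3 * (o2.1 - o1.1))) * fY m0 c o1 o2 o3 p + 0) *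
        (σ / (o2.1 - o1.1) * fX m0 c o1 p' +
          -(σ / (cc o1 o2 o3 * (o2.1 - o1.1))) * fY m0 c o1 o2 o3 p' + 0) *
        (σ / (o2.1 - o1.1) * fX m0 c o1 s +
          -(σ / (cc o1 o2 o3 * (o2.1 - o1.1))) * fY m0 c o1 o2 o3 s + 0)) := by
    intro p hp p' hp' s hs
    rw [hl p hp, hl p' hp', hl s hs, det3_class, dt_chart m0 c p p' s (hv0 p hp) (hv0 p' hp')
      (hv0 s hs), abs_neg, abs_mul, abs_mul, abs_mul, abs_mul (-(cc o1 o2 o3 * (o2.1 - o1.1))),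
      abs_neg]
    have a1 : |chV m0 c p| = σ * chV m0 c p := by
      rw [← abs_of_pos (hσ p hp), abs_mul, hσ2, one_mul]
    have a2 : |chV m0 c p'| = σ * chV m0 c p' := by
      rw [← abs_of_pos (hσ p' hp'), abs_mul, hσ2, one_mul]
    have a3 : |chV m0 c s| = σ * chV m0 c s := by
      rw [← abs_of_pos (hσ s hs), abs_mul, hσ2, one_mul]
    rw [a1, a2, a3]
    have b1 := (hσ p hp).ne'
    have b2 := (hσ p' hp').ne'
    have b3 := (hσ s hs).ne'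
    have hk' := hk.ne'
    field_simp
  -- activity
  have hact : ∀ p ∈ P, lam ≤ K ^ 2 * #{w ∈ W | p ∈ R w} := by
    intro p hp
    obtain ⟨e', he', rfl⟩ := hPF p hp
    have h1 : #{a ∈ F.image Prod.fst | (a, e'.2) ∈ F} ≤
        ∑ w ∈ {w ∈ W | e'.2 ∈ R w},
          #{a ∈ F.image Prod.fst | (a, e'.2) ∈ F ∧ Wd (a, e'.2) = w} := by
      refine (card_le_card ?_).trans card_biUnion_le
      intro a ha
      obtain ⟨h2, h3⟩ := mem_filter.1 ha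
      have h4 := h.fl _ h3
      exact mem_biUnion.2 ⟨Wd (a, e'.2), mem_filter.2 ⟨h4.wW, h4.jq.2.1⟩,
        mem_filter.2 ⟨h2, h3, rfl⟩⟩
    have h2 : (#{a ∈ F.image Prod.fst | (a, e'.2) ∈ F} : ℝ) ≤
        ∑ w ∈ {w ∈ W | e'.2 ∈ R w},
          (#{a ∈ F.image Prod.fst | (a, e'.2) ∈ F ∧ Wd (a, e'.2) = w} : ℝ) := by
      exact_mod_cast h1
    have h3 : lam ^ 2 * (#{a ∈ F.image Prod.fst | (a, e'.2) ∈ F} : ℝ) ≤
        #{w ∈ W | e'.2 ∈ R w} * (K * #Q) := by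
      calc lam ^ 2 * (#{a ∈ F.image Prod.fst | (a, e'.2) ∈ F} : ℝ)
          ≤ lam ^ 2 * ∑ w ∈ {w ∈ W | e'.2 ∈ R w},
            (#{a ∈ F.image Prod.fst | (a, e'.2) ∈ F ∧ Wd (a, e'.2) = w} : ℝ) := by gcongr
        _ = ∑ w ∈ {w ∈ W | e'.2 ∈ R w}, lam ^ 2 *
            (#{a ∈ F.image Prod.fst | (a, e'.2) ∈ F ∧ Wd (a, e'.2) = w} : ℝ) := mul_sum _ _ _
        _ ≤ ∑ _w ∈ {w ∈ W | e'.2 ∈ R w}, K * (#Q : ℝ) :=
            sum_le_sum fun w _ => h.flag e'.2 w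
        _ = _ := by rw [sum_const, nsmul_eq_mul]
    have h4 := hdegq e' he'
    have h5 : lam * #Q ≤ (K ^ 2 * #{w ∈ W | e'.2 ∈ R w}) * #Q := by
      calc lam * #Q ≤ lam * (K * lam * #{a ∈ F.image Prod.fst | (a, e'.2) ∈ F}) := by gcongr
        _ = K * (lam ^ 2 * (#{a ∈ F.image Prod.fst | (a, e'.2) ∈ F} : ℝ)) := by ring
        _ ≤ K * (#{w ∈ W | e'.2 ∈ R w} * (K * #Q)) := by gcongr
        _ = _ := by ring
    exact le_of_mul_le_mul_right h5 hQ0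
  have hm : lam ^ 2 * ((#Q : ℝ) / lam ^ 2) = #Q := by field_simp
  obtain ⟨S, hSP, al, hal, h1, h2, h3⟩ := run0_core (e := e) (K := K) (Ka := K ^ 2)
    (n := lam) (m := #Q / lam ^ 2) (δ := δ) (r := r) (M := M) (κ := κ) (x0 := x) (y0 := y)
    hK (by positivity) hlam (by positivity) h.pos hδr (Q := Q) (W := W) (R := R) (P := P) hPQ
    (fX m0 c o1) (fY m0 c o1 o2 o3) (fun p hp => (mem_filter.1 hp).2)
    (by
      intro s t
      have h1 := h.cell s t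
      have h2 : (#{p ∈ P | |fX m0 c o1 p - s| ≤ δ ∧ |fY m0 c o1 o2 o3 p - t| ≤ δ} : ℝ) ≤
          #{q ∈ F.image Prod.snd | |fX m0 c o1 q - s| ≤ δ ∧ |fY m0 c o1 o2 o3 q - t| ≤ δ} := by
        have : #{p ∈ P | |fX m0 c o1 p - s| ≤ δ ∧ |fY m0 c o1 o2 o3 p - t| ≤ δ} ≤
          #{q ∈ F.image Prod.snd | |fX m0 c o1 q - s| ≤ δ ∧ |fY m0 c o1 o2 o3 q - t| ≤ δ} :=
          card_le_card (filter_subset_filter _ (filter_subset _ _))
        exact_mod_cast this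
      refine h2.trans ?_
      rw [← mul_div_assoc, le_div_iff₀ (by positivity)]
      linarith)
    (by rw [hm]; exact hbig.le)
    (by rw [mul_assoc, hm]; nlinarith)
    (by rw [hm]; nlinarith)
    hr1 hlpos (one_div_pos.2 hk) hdt hact hM hκ
  refine ⟨S, hSP.trans hPQ, al, hal, h1, h2, ?_⟩
  calc lam * #Q ≤ 2 * K ^ (e + 1) * K ^ 2 * ∑ w ∈ W, (#(R w ∩ S) : ℝ) := h3
    _ = _ := by rw [mul_assoc (2 : ℝ), ← pow_add]

open Classical in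
/-- **[RUN0]** -/
theorem run0 {q e : ℕ} (hq : 2 ≤ q) {K K' lam M κ : ℝ} {Q : Finset Pt} {W : Finset ℕ}
    {I : ℕ → Set ℝ} {R : ℕ → Finset Pt} (hV : JView K' lam Q W I R) (hK : 1 ≤ K)
    {c : Pt} {w0 : ℕ} {m0 : ℝ} {o1 o2 o3 : Pt} {F : Finset (Pt × Pt)} {Wd : Pt × Pt → ℕ} {δ : ℝ}
    (h : Mach K lam Q W I R c w0 m0 o1 o2 o3 F Wd δ)
    (hdegq : ∀ e ∈ F, (#Q : ℝ) ≤ K * lam * #{a ∈ F.image Prod.fst | (a, e.2) ∈ F})
    (hdim : ¬ MDim q e K lam Q c m0 o1 o2 o3 F δ)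
    (hKn : (240 * K ^ 2 * M) ^ 2 ≤ lam) (hM : 2 * K ^ (e + 1) ≤ M) (hκ0 : 0 ≤ κ)
    (hκ : (2 ^ 29 * κ * (96 * K ^ 2 * M) ^ 4) ^ q * lam ^ 8 ≤ 1) :
    ∃ S ⊆ Q, ∃ al > 0, (∀ p ∈ S, ∀ p' ∈ S, ∀ s ∈ S, |dt p p' s| ≤ al) ∧ NC M κ al #Q S ∧
      lam * #Q ≤ 2 * K ^ (e + 3) * ∑ w ∈ W, (#(R w ∩ S) : ℝ) := by
  unfold MDim at hdim
  push Not at hdim
  obtain ⟨x, y, r, hδr, hfail, hbig⟩ := hdim
  have hK1 : 1 ≤ K ^ (e + 1) := one_le_pow₀ hK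
  have hM1 : 1 ≤ M := by linarith
  have hB1 : 1 ≤ 240 * K ^ 2 * M := by
    have : 1 ≤ K ^ 2 := one_le_pow₀ hK
    nlinarith
  have hB2 : 1 ≤ 96 * K ^ 2 * M := by
    have : 1 ≤ K ^ 2 := one_le_pow₀ hK
    nlinarith
  exact run0_box hV hK h hdegq hδr hbig (exp_one hq hV.one h.pos hδr hB1 hfail hKn) hM
    (exp_two (q := q) hV.one h.pos (h.pos.trans_le hδr) hB2 hκ0 hfail (by omega) rfl hκ)

end Vale.Agent.P065.H650
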