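import Vale.Agent.P065.H650.Run0
import Vale.Agent.P065.UB.DimAsm.Defs

/-!
# P065, upper bound, [DIM], block [RUN0], literal form of helper752 (helper650)
-/

set_option autoImplicit false

namespace Vale.Agent.P065.H650

open Finset Vale.Agent.P065.UB Vale.Agent.P065.UB.NormDrop Vale.Agent.P065.H183
open Vale.Agent.P065.UB.MC Vale.Agent.P065.UB.DimAsm

theorem nc_anti {M M' κ al : ℝ} {N : ℕ} {S : Finset Pt} (h : NC M κ al N S) (hM : M' ≤ M) :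
    NC M' κ al N S := fun T hT hN => h T hT (hN.trans
      (mul_le_mul_of_nonneg_right hM (Nat.cast_nonneg _)))

/-- numeral against a power -/
theorem le_pow_of_two_le {K a : ℝ} (hK : 2 ≤ K) {k : ℕ} (h : a ≤ 2 ^ k) : a ≤ K ^ k :=
  h.trans (pow_le_pow_left₀ (by norm_num) hK k)

theorem run0_lit : ∃ c₀ : ℕ, ∀ e C₂ : ℕ, ∃ C₃ : ℕ, ∀ (K K' lam g x y r : ℝ) (Q : Finset Pt)
    (W : Finset ℕ) (I : ℕ → Set ℝ) (R : ℕ → Finset Pt), JView K' lam Q W I R → K' ≤ K →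
    ∀ (c : Pt) (w0 : ℕ) (m0 : ℝ) (o1 o2 o3 : Pt) (F : Finset (Pt × Pt)) (Wd : Pt × Pt → ℕ)
      (δ : ℝ), Mach K lam Q W I R c w0 m0 o1 o2 o3 F Wd δ →
    (open Classical in
      ∀ e ∈ F, (#Q : ℝ) ≤ K * lam * #{a ∈ F.image Prod.fst | (a, e.2) ∈ F}) →
    K ^ C₃ ≤ g → (C₃ : ℝ) ≤ g → g ^ 100 ≤ lam → lam ^ C₃ ≤ #Q → δ ≤ r → r ≤ lam * g * δ →
    (#Q : ℝ) < K ^ e * #(bx m0 c o1 o2 o3 F x y (2 * r)) →
    open Classical in
    ∃ S ⊆ Q, ∃ al : ℝ, 0 < al ∧ (∀ p ∈ S, ∀ q ∈ S, ∀ r ∈ S, |dt p q r| ≤ al) ∧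
      NC (K ^ C₂) ((g ^ 20)⁻¹) al #Q S ∧
      lam * #Q ≤ K ^ (c₀ * (e + 1)) * ∑ w ∈ W, (#(R w ∩ S) : ℝ) := by
  classical
  refine ⟨4, fun e C₂ => ⟨4 * (C₂ + e) + 100, ?_⟩⟩
  intro K K' lam g x y r Q W I R hV hKK c w0 m0 o1 o2 o3 F Wd δ h hdegq hKg _ hglam _ hδr hr hbig
  have hK2 : 2 ≤ K := hV.two.trans hKK
  have hK1 : 1 ≤ K := by linarith
  have hg1 : 1 ≤ g := (one_le_pow₀ hK1).trans hKg
  have hg0 : 0 < g := by linarith
  have hδ := h.pos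
  have hr0 : 0 < r := hδ.trans_le hδr
  have hlam0 : 0 < lam := by linarith [hV.one]
  set D := C₂ + e + 2 with hD
  set M : ℝ := K ^ D with hM
  have hM2 : 2 * K ^ (e + 1) ≤ M := by
    calc 2 * K ^ (e + 1) ≤ K * K ^ (e + 1) := by gcongr
      _ = K ^ (e + 2) := by ring
      _ ≤ K ^ D := pow_le_pow_right₀ hK1 (by omega)
  have hM1 : 1 ≤ M := one_le_pow₀ hK1
  have hM0 : 0 < M := by linarith
  have hK0 : 0 < K := by linarith
  -- 240 K^2 M g ≤ lam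
  have h1 : 240 * K ^ 2 * M * g ≤ lam := by
    have a1 : (240 : ℝ) ≤ K ^ 8 := le_pow_of_two_le hK2 (by norm_num)
    have a2 : 240 * K ^ 2 * M ≤ g := by
      calc 240 * K ^ 2 * M ≤ K ^ 8 * K ^ 2 * K ^ D := by gcongr
        _ = K ^ (10 + D) := by ring
        _ ≤ K ^ (4 * (C₂ + e) + 100) := pow_le_pow_right₀ hK1 (by omega)
        _ ≤ g := hKg
    calc 240 * K ^ 2 * M * g ≤ g * g := by gcongr
      _ = g ^ 2 := by ring
      _ ≤ g ^ 100 := pow_le_pow_right₀ hg1 (by norm_num)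
      _ ≤ lam := hglam
  have hr1 : 240 * K ^ 2 * M * r ≤ lam ^ 2 * δ := by
    calc 240 * K ^ 2 * M * r ≤ 240 * K ^ 2 * M * (lam * g * δ) := by gcongr
      _ = (240 * K ^ 2 * M * g) * (lam * δ) := by ring
      _ ≤ lam * (lam * δ) := by gcongr
      _ = lam ^ 2 * δ := by ring
  -- exponent
  have hκ : 2 ^ 29 * (g ^ 20)⁻¹ ≤
      (min (δ ^ 2 * lam ^ 2 / (96 * K ^ 2 * M * r ^ 2)) 1) ^ 4 := by
    have a0 : 0 < 96 * K ^ 2 * M := by positivity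
    have a1 : 1 / (96 * K ^ 2 * M * g ^ 2) ≤
        min (δ ^ 2 * lam ^ 2 / (96 * K ^ 2 * M * r ^ 2)) 1 := by
      apply le_min
      · rw [div_le_div_iff₀ (by positivity) (by positivity), one_mul]
        have a2 : r ^ 2 ≤ (lam * g * δ) ^ 2 := pow_le_pow_left₀ hr0.le hr 2
        calc 96 * K ^ 2 * M * r ^ 2 ≤ 96 * K ^ 2 * M * (lam * g * δ) ^ 2 := by gcongr
          _ = _ := by ring
      · rw [div_le_one (by positivity)]
        have a2 : 1 ≤ K ^ 2 := one_le_pow₀ hK1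
        have a3 : 1 ≤ g ^ 2 := one_le_pow₀ hg1
        have a4 : 1 ≤ K ^ 2 * M := one_le_mul_of_one_le_of_one_le a2 hM1
        have a5 : 1 ≤ K ^ 2 * M * g ^ 2 := one_le_mul_of_one_le_of_one_le a4 a3
        linarith
    have a2 : (1 / (96 * K ^ 2 * M * g ^ 2)) ^ 4 ≤
        (min (δ ^ 2 * lam ^ 2 / (96 * K ^ 2 * M * r ^ 2)) 1) ^ 4 :=
      pow_le_pow_left₀ (by positivity) a1 4
    refine le_trans ?_ a2
    rw [div_pow, one_pow, ← one_div, mul_one_div, div_le_div_iff₀ (by positivity) (by positivity),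
      one_mul]
    have a3 : (96 : ℝ) ≤ K ^ 7 := le_pow_of_two_le hK2 (by norm_num)
    have a4 : (2 : ℝ) ^ 29 ≤ K ^ 29 := le_pow_of_two_le hK2 le_rfl
    calc 2 ^ 29 * (96 * K ^ 2 * M * g ^ 2) ^ 4
        ≤ K ^ 29 * (K ^ 7 * K ^ 2 * K ^ D * g ^ 2) ^ 4 := by gcongr
      _ = K ^ (65 + 4 * D) * g ^ 8 := by ring
      _ ≤ K ^ (4 * (C₂ + e) + 100) * g ^ 8 :=
          mul_le_mul_of_nonneg_right (pow_le_pow_right₀ hK1 (by omega)) (by positivity)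
      _ ≤ g * g ^ 8 := by gcongr
      _ = g ^ 9 := by ring
      _ ≤ g ^ 20 := pow_le_pow_right₀ hg1 (by norm_num)
  obtain ⟨S, hS, al, hal, h2, h3, h4⟩ := run0_box (e := e) (M := M) (κ := (g ^ 20)⁻¹)
    (x := x) (y := y) hV hK1 h hdegq hδr (by
      unfold bx at hbig
      exact hbig) hr1 hM2 hκ
  refine ⟨S, hS, al, hal, h2, nc_anti h3 (pow_le_pow_right₀ hK1 (by omega)), ?_⟩
  refine h4.trans ?_
  have hsum : 0 ≤ ∑ w ∈ W, (#(R w ∩ S) : ℝ) := sum_nonneg fun _ _ => Nat.cast_nonneg _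
  refine mul_le_mul_of_nonneg_right ?_ hsum
  calc 2 * K ^ (e + 3) ≤ K * K ^ (e + 3) := by gcongr
    _ = K ^ (e + 4) := by ring
    _ ≤ K ^ (4 * (e + 1)) := pow_le_pow_right₀ hK1 (by omega)

/-- **[RUN0]**, the literal Prop of helper752 -/
theorem stRun0 : StRun0 := by
  obtain ⟨c₀, h⟩ := run0_lit
  refine ⟨c₀, fun e C₂ => ?_⟩
  obtain ⟨C₃, h⟩ := h e C₂
  refine ⟨C₃, ?_⟩
  intro K K' lam g x y r Q W I R hV hKK c w0 m0 o1 o2 o3 F Wd δ hM h1 h2 h3 h4 h5 h6 h7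
  exact h K K' lam g x y r Q W I R hV hKK c w0 m0 o1 o2 o3 F Wd δ hM hM.deg h1 h2 h3 h4 h5 h6 h7

end Vale.Agent.P065.H650
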