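import Vale.Agent.P118.OF.RasmS
import Vale.Agent.P118.OF.R2S
import Vale.Agent.P118.OF.R3
import Vale.Agent.P118.OF.R4

/-!
# The finite theorem `OS.StFinite` for sets of reals, uniformly in the dimension (helper650)

`OS.StFinite` (P118) has constants depending on the dimension `κ`.  Here `D = 1`, the sets are sets
of real numbers, and the constants are uniform for `κ` in a compact interval of `(0, 1)` and for all
Frostman exponents `τ ≥ τ₀`.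
-/

set_option autoImplicit false

namespace Vale.Agent.P065.H650

open Set Vale.Agent.P118

/-- `κ`-regular finite set of reals at all scales in `[δ, 1]`, with loss `δ ^ (-c)`. -/
structure RegR (κ c δ : ℝ) (H : Finset ℝ) : Prop where
  norm_le : ∀ h ∈ H, |h| ≤ 2
  sep : OF.Sep δ H
  up : ∀ x t : ℝ, δ ≤ t → t ≤ 1 → (OF.nb H x t : ℝ) ≤ δ ^ (-c) * (t / δ) ^ κ
  cov : ∀ t : ℝ, δ ≤ t → t ≤ 1 → OF.Cov t (δ ^ (-c) * t ^ (-κ)) (H : Set ℝ)

/-- the finite theorem for reals, uniform in the dimension -/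
def StFinU : Prop :=
  ∀ k₀ k₁ t₀ : ℝ, 0 < k₀ → k₁ < 1 → 0 < t₀ →
    ∃ c : ℝ, 0 < c ∧ ∃ δ₀ : ℝ, 0 < δ₀ ∧ ∀ κ τ : ℝ, k₀ ≤ κ → κ ≤ k₁ → t₀ ≤ τ →
    ∀ δ : ℝ, 0 < δ → δ ≤ δ₀ →
    ∀ (A B H : Finset ℝ) (G : ℝ → Finset (ℝ × ℝ)),
      A.Nonempty → (∀ a ∈ A, δ ^ c ≤ |a| ∧ |a| ≤ δ ^ (-c)) → OF.Frost τ c δ A →
      RegR κ c δ B → RegR κ c δ H →
      (∀ a ∈ A, ∀ p ∈ G a, p.1 ∈ B ∧ p.2 ∈ H) →
      (∀ a ∈ A, δ ^ (-(2 * κ) + c) ≤ ((G a).card : ℝ)) →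
      (∀ a ∈ A, OF.Cov δ (δ ^ (-κ - c)) {z : ℝ | ∃ p ∈ G a, z = p.1 + a * p.2}) → False

/-! ### the embedding `ℝ → EuclideanSpace ℝ (Fin 1)` -/

/-- the embedding -/
noncomputable def em (x : ℝ) : OS.E 1 := EuclideanSpace.single 0 x

theorem em_apply (x : ℝ) (i : Fin 1) : em x i = x := by
  have : i = 0 := Subsingleton.elim _ _
  subst this
  simp [em]

theorem em_inj : Function.Injective em := by
  intro x y h
  have := congrArg (fun v : OS.E 1 => v 0) h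
  simpa [em_apply] using this

theorem em_add (x y : ℝ) : em (x + y) = em x + em y := by
  ext i
  simp [em_apply]

theorem em_smul (a x : ℝ) : em (a * x) = a • em x := by
  ext i
  simp [em_apply]

theorem norm_em (x : ℝ) : ‖em x‖ = |x| := by
  simp [em]

theorem dist_em (x y : ℝ) : dist (em x) (em y) = dist x y := by
  rw [dist_eq_norm, Real.dist_eq, ← norm_em (x - y)]
  congr 1
  ext i
  simp [em_apply]

theorem em_surj (v : OS.E 1) : em (v 0) = v := by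
  ext i
  have : i = 0 := Subsingleton.elim _ _
  subst this
  simp [em_apply]

theorem cov_em {r N : ℝ} {S : Set ℝ} (h : OF.Cov r N S) : OF.Cov r N (em '' S) := by
  classical
  obtain ⟨X, h1, h2⟩ := h
  refine ⟨X.image em, ?_, ?_⟩
  · refine le_trans ?_ h1
    exact_mod_cast Finset.card_image_le
  · rintro _ ⟨s, hs, rfl⟩
    obtain ⟨x, hx, hd⟩ := h2 s hs
    exact ⟨em x, Finset.mem_image_of_mem _ hx, by rw [dist_em]; exact hd⟩

open Classical in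
theorem nb_em (H : Finset ℝ) (v : OS.E 1) (t : ℝ) :
    OF.nb (H.image em) v t = OF.nb H (v 0) t := by
  unfold OF.nb
  rw [Finset.filter_image, Finset.card_image_of_injective _ em_inj]
  congr 1
  ext y
  simp only [Finset.mem_filter]
  have : dist v (em y) = dist (v 0) y := by
    conv_lhs => rw [← em_surj v]
    exact dist_em _ _
  rw [this]

open Classical in
theorem reg_em {κ c δ : ℝ} {H : Finset ℝ} (h : RegR κ c δ H) : OF.Reg κ c δ (H.image em) := by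
  refine ⟨?_, ?_, ?_, ?_⟩
  · intro v hv
    obtain ⟨x, hx, rfl⟩ := Finset.mem_image.1 hv
    rw [norm_em]
    exact h.norm_le x hx
  · intro v hv w hw hne
    obtain ⟨x, hx, rfl⟩ := Finset.mem_image.1 hv
    obtain ⟨y, hy, rfl⟩ := Finset.mem_image.1 hw
    rw [dist_em]
    exact h.sep x hx y hy (fun e => hne (by rw [e]))
  · intro v t h1 h2
    rw [nb_em]
    exact h.up _ t h1 h2
  · intro t h1 h2
    have := cov_em (h.cov t h1 h2)
    rwa [Finset.coe_image]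

open Classical in
/-- fixed dimension, reals -/
theorem finite_real (hF : OS.StFinite) (κ τ : ℝ) (h0 : 0 < κ) (h1 : κ < 1) (hτ : 0 < τ) :
    ∃ c : ℝ, 0 < c ∧ ∃ δ₀ : ℝ, 0 < δ₀ ∧ ∀ δ : ℝ, 0 < δ → δ ≤ δ₀ →
    ∀ (A B H : Finset ℝ) (G : ℝ → Finset (ℝ × ℝ)),
      A.Nonempty → (∀ a ∈ A, δ ^ c ≤ |a| ∧ |a| ≤ δ ^ (-c)) → OF.Frost τ c δ A →
      RegR κ c δ B → RegR κ c δ H →
      (∀ a ∈ A, ∀ p ∈ G a, p.1 ∈ B ∧ p.2 ∈ H) →
      (∀ a ∈ A, δ ^ (-(2 * κ) + c) ≤ ((G a).card : ℝ)) →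
      (∀ a ∈ A, OF.Cov δ (δ ^ (-κ - c)) {z : ℝ | ∃ p ∈ G a, z = p.1 + a * p.2}) → False := by
  obtain ⟨c, hc, δ₀, hδ₀, h⟩ := hF 1 0 κ τ (by simpa using h0) (by simpa using h1) hτ
  refine ⟨c, hc, δ₀, hδ₀, ?_⟩
  intro δ hδ hδ0 A B H G hA hA2 hFr hB hH hG hG2 hG3
  refine h δ hδ hδ0 A (B.image em) (H.image em)
    (fun a => (G a).image (fun p => (em p.1, em p.2))) hA hA2 hFr (reg_em hB) (reg_em hH) ?_ ?_ ?_
  · intro a ha p hp
    obtain ⟨q, hq, rfl⟩ := Finset.mem_image.1 hp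
    exact ⟨Finset.mem_image_of_mem _ (hG a ha q hq).1, Finset.mem_image_of_mem _ (hG a ha q hq).2⟩
  · intro a ha
    rw [Finset.card_image_of_injective]
    · exact hG2 a ha
    · rintro ⟨x, y⟩ ⟨x', y'⟩ he
      simp only [Prod.mk.injEq] at he
      exact Prod.ext (em_inj he.1) (em_inj he.2)
  · intro a ha
    refine OF.Ras.Cov.subset (cov_em (hG3 a ha)) ?_
    rintro z ⟨p, hp, rfl⟩
    obtain ⟨q, hq, rfl⟩ := Finset.mem_image.1 hp
    refine ⟨q.1 + a * q.2, ⟨q, hq, rfl⟩, ?_⟩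
    rw [em_add, em_smul]

/-! ### monotonicity in the exponents -/

theorem rpow_le_of {δ a b : ℝ} (h0 : 0 < δ) (h1 : δ ≤ 1) (h : b ≤ a) : δ ^ a ≤ δ ^ b :=
  Real.rpow_le_rpow_of_exponent_ge h0 h1 h

theorem cov_mono {V : Type*} [PseudoMetricSpace V] {r N N' : ℝ} {S : Set V}
    (h : OF.Cov r N S) (hN : N ≤ N') : OF.Cov r N' S := by
  obtain ⟨X, h1, h2⟩ := h
  exact ⟨X, h1.trans hN, h2⟩

theorem frost_mono {τ τ' c c' δ : ℝ} {A : Finset ℝ} (h : OF.Frost τ' c' δ A) (h0 : 0 < δ)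
    (h1 : δ ≤ 1) (hτ : τ ≤ τ') (hc : c' ≤ c) : OF.Frost τ c δ A := by
  intro x t ht ht1
  have ht0 : 0 < t := lt_of_lt_of_le h0 ht
  refine (h x t ht ht1).trans ?_
  have e1 : δ ^ (-c') ≤ δ ^ (-c) := rpow_le_of h0 h1 (by linarith)
  have e2 : t ^ τ' ≤ t ^ τ := rpow_le_of ht0 ht1 hτ
  have p1 : 0 ≤ δ ^ (-c') := (Real.rpow_pos_of_pos h0 _).le
  have p2 : 0 ≤ t ^ τ' := (Real.rpow_pos_of_pos ht0 _).le
  have p3 : (0:ℝ) ≤ A.card := Nat.cast_nonneg _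
  gcongr

/-- changing the dimension by `η` costs `δ ^ (-η)` -/
theorem reg_mono {κ κ' c c' δ η : ℝ} {H : Finset ℝ} (h : RegR κ' c' δ H) (h0 : 0 < δ)
    (h1 : δ ≤ 1) (hκ : |κ' - κ| ≤ η) (hc : c' + η ≤ c) : RegR κ c δ H := by
  have hk1 : κ' - κ ≤ η := (abs_le.1 hκ).2
  have hk2 : -η ≤ κ' - κ := (abs_le.1 hκ).1
  refine ⟨h.norm_le, h.sep, ?_, ?_⟩
  · intro x t ht ht1
    have ht0 : 0 < t := lt_of_lt_of_le h0 ht
    refine (h.up x t ht ht1).trans ?_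
    have hr1 : 1 ≤ t / δ := (one_le_div h0).2 ht
    have hr0 : 0 < t / δ := by positivity
    have hr2 : t / δ ≤ δ⁻¹ := by
      rw [div_eq_mul_inv]
      exact mul_le_of_le_one_left (inv_nonneg.2 h0.le) ht1
    have e1 : (t / δ) ^ κ' ≤ δ ^ (-η) * (t / δ) ^ κ := by
      have e2 : (t / δ) ^ κ' = (t / δ) ^ (κ' - κ) * (t / δ) ^ κ := by
        rw [← Real.rpow_add hr0]; congr 1; ring
      have hη : 0 ≤ η := (abs_nonneg _).trans hκ
      have e3 : (t / δ) ^ (κ' - κ) ≤ (t / δ) ^ η := Real.rpow_le_rpow_of_exponent_le hr1 hk1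
      have e4 : (t / δ) ^ η ≤ (δ⁻¹) ^ η := Real.rpow_le_rpow hr0.le hr2 hη
      have e5 : (δ⁻¹) ^ η = δ ^ (-η) := by
        rw [Real.inv_rpow h0.le, Real.rpow_neg h0.le]
      rw [e2]
      have p : 0 ≤ (t / δ) ^ κ := (Real.rpow_pos_of_pos hr0 _).le
      exact mul_le_mul_of_nonneg_right (e5 ▸ e3.trans e4) p
    calc δ ^ (-c') * (t / δ) ^ κ' ≤ δ ^ (-c') * (δ ^ (-η) * (t / δ) ^ κ) :=
          mul_le_mul_of_nonneg_left e1 (Real.rpow_pos_of_pos h0 _).le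
      _ = δ ^ (-c' + -η) * (t / δ) ^ κ := by rw [Real.rpow_add h0]; ring
      _ ≤ δ ^ (-c) * (t / δ) ^ κ :=
          mul_le_mul_of_nonneg_right (rpow_le_of h0 h1 (by linarith))
            (Real.rpow_pos_of_pos hr0 _).le
  · intro t ht ht1
    have ht0 : 0 < t := lt_of_lt_of_le h0 ht
    refine cov_mono (h.cov t ht ht1) ?_
    have hη : 0 ≤ η := (abs_nonneg _).trans hκ
    have e2 : t ^ (-κ') = t ^ (κ - κ') * t ^ (-κ) := by
      rw [← Real.rpow_add ht0]; congr 1; ring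
    have e3 : t ^ (κ - κ') ≤ t ^ (-η) := rpow_le_of ht0 ht1 (by linarith)
    have e4 : t ^ (-η) ≤ δ ^ (-η) := by
      rw [Real.rpow_neg ht0.le, Real.rpow_neg h0.le]
      exact inv_anti₀ (Real.rpow_pos_of_pos h0 _) (Real.rpow_le_rpow h0.le ht hη)
    calc δ ^ (-c') * t ^ (-κ') ≤ δ ^ (-c') * (δ ^ (-η) * t ^ (-κ)) := by
          rw [e2]
          exact mul_le_mul_of_nonneg_left
            (mul_le_mul_of_nonneg_right (e3.trans e4) (Real.rpow_pos_of_pos ht0 _).le)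
            (Real.rpow_pos_of_pos h0 _).le
      _ = δ ^ (-c' + -η) * t ^ (-κ) := by rw [Real.rpow_add h0]; ring
      _ ≤ δ ^ (-c) * t ^ (-κ) :=
          mul_le_mul_of_nonneg_right (rpow_le_of h0 h1 (by linarith))
            (Real.rpow_pos_of_pos ht0 _).le

/-- **the uniform finite theorem** -/
theorem stFinU_of (hF : OS.StFinite) : StFinU := by
  intro k₀ k₁ t₀ hk₀ hk₁ ht₀
  -- constants at every dimension
  have hex : ∀ κ : ℝ, ∃ c : ℝ, 0 < c ∧ ∃ δ₀ : ℝ, 0 < δ₀ ∧ (k₀ ≤ κ → κ ≤ k₁ →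
      ∀ δ : ℝ, 0 < δ → δ ≤ δ₀ →
      ∀ (A B H : Finset ℝ) (G : ℝ → Finset (ℝ × ℝ)),
      A.Nonempty → (∀ a ∈ A, δ ^ c ≤ |a| ∧ |a| ≤ δ ^ (-c)) → OF.Frost t₀ c δ A →
      RegR κ c δ B → RegR κ c δ H →
      (∀ a ∈ A, ∀ p ∈ G a, p.1 ∈ B ∧ p.2 ∈ H) →
      (∀ a ∈ A, δ ^ (-(2 * κ) + c) ≤ ((G a).card : ℝ)) →
      (∀ a ∈ A, OF.Cov δ (δ ^ (-κ - c)) {z : ℝ | ∃ p ∈ G a, z = p.1 + a * p.2}) → False) := by
    intro κ
    by_cases hκ : k₀ ≤ κ ∧ κ ≤ k₁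
    · obtain ⟨c, hc, δ₀, hδ₀, h⟩ := finite_real hF κ t₀ (lt_of_lt_of_le hk₀ hκ.1)
        (lt_of_le_of_lt hκ.2 hk₁) ht₀
      exact ⟨c, hc, δ₀, hδ₀, fun _ _ => h⟩
    · exact ⟨1, one_pos, 1, one_pos, fun h1 h2 => absurd ⟨h1, h2⟩ hκ⟩
  choose cf hcf df hdf hmain using hex
  -- finite subcover
  obtain ⟨T, hT1, hT2⟩ := isCompact_Icc.elim_nhds_subcover (s := Icc k₀ k₁)
    (fun κ => Metric.ball κ (cf κ / 4)) (fun κ _ => Metric.ball_mem_nhds κ (by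
      have := hcf κ; linarith))
  by_cases hTe : T.Nonempty
  · refine ⟨T.inf' hTe (fun κ => cf κ / 2), ?_, min 1 (T.inf' hTe df), ?_, ?_⟩
    · rw [Finset.lt_inf'_iff]
      intro κ _
      have := hcf κ
      linarith
    · refine lt_min one_pos ?_
      rw [Finset.lt_inf'_iff]
      intro κ _
      exact hdf κ
    · intro κ τ hκ0 hκ1 hτ δ hδ hδ0 A B H G hA hA2 hFr hB hH hG hG2 hG3
      obtain ⟨κ', hκ', hκκ⟩ : ∃ κ' ∈ T, κ ∈ Metric.ball κ' (cf κ' / 4) := by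
        have := hT2 (show κ ∈ Icc k₀ k₁ from ⟨hκ0, hκ1⟩)
        simpa using this
      have hd : |κ - κ'| ≤ cf κ' / 4 := by
        rw [Metric.mem_ball, Real.dist_eq] at hκκ
        exact hκκ.le
      have hδ1 : δ ≤ 1 := hδ0.trans (min_le_left _ _)
      have hδ2 : δ ≤ df κ' := (hδ0.trans (min_le_right _ _)).trans (Finset.inf'_le _ hκ')
      set c := T.inf' hTe (fun κ => cf κ / 2) with hcdef
      have hcc : c ≤ cf κ' / 2 := Finset.inf'_le _ hκ'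
      have hpos := hcf κ'
      have hk1 : κ - κ' ≤ cf κ' / 4 := (abs_le.1 hd).2
      have hk2 : -(cf κ' / 4) ≤ κ - κ' := (abs_le.1 hd).1
      refine hmain κ' (hT1 κ' hκ').1 (hT1 κ' hκ').2 δ hδ hδ2 A B H G hA ?_ ?_
        (reg_mono hB hδ hδ1 hd (by linarith)) (reg_mono hH hδ hδ1 hd (by linarith)) hG ?_ ?_
      · intro a ha
        refine ⟨(rpow_le_of hδ hδ1 (by linarith)).trans (hA2 a ha).1,
          (hA2 a ha).2.trans (rpow_le_of hδ hδ1 (by linarith))⟩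
      · exact frost_mono hFr hδ hδ1 hτ (by linarith)
      · intro a ha
        refine le_trans ?_ (hG2 a ha)
        exact rpow_le_of hδ hδ1 (by linarith)
      · intro a ha
        refine cov_mono (hG3 a ha) ?_
        exact rpow_le_of hδ hδ1 (by linarith)
  · -- empty cover: the interval is empty
    refine ⟨1, one_pos, 1, one_pos, ?_⟩
    intro κ τ hκ0 hκ1
    exfalso
    have := hT2 (show κ ∈ Icc k₀ k₁ from ⟨hκ0, hκ1⟩)
    rw [Finset.not_nonempty_iff_eq_empty] at hTe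
    simp [hTe] at this

/-- **the uniform finite theorem, unconditionally** (P118: BSG, ring, end) -/
theorem stFinU : StFinU := stFinU_of (OF.stFinite_of OF.stR2S OF.stR3 OF.R4.stR4)

end Vale.Agent.P065.H650
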