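import Vale.Agent.P065.UB.Defs
import Vale.Agent.P065.UB.H822.Core

/-!
# P065, upper bound, cherry lemma of helper989 (note 19253), step (2) (helper650)

Log cross ratios: `Lg s t σ = log |σ - s| - log |σ - t|`, `wd s t a b` = its variation over
`[a, b]`.  For three points `p1, p2, p3` and a point `z` with slopes `σ1, σ2, σ3` the sum
`Lg s13 s12 σ1 + Lg s21 s23 σ2 + Lg s32 s31 σ3` vanishes.  So on a cell cut out by a sector at `p1`
and a sector at `p2` the third coordinate varies by at most the sum of the two widths, and few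
disjoint sectors at `p3` which meet the cell are wide.
-/

set_option autoImplicit false

namespace Vale.Agent.P065.H650

open Finset Vale.Agent.P065.UB

/-- `log |σ - s| - log |σ - t|` -/
noncomputable def Lg (s t σ : ℝ) : ℝ := Real.log (σ - s) - Real.log (σ - t)

/-- the width of `[a, b]` with respect to `s, t` (log cross ratio) -/
noncomputable def wd (s t a b : ℝ) : ℝ := |Lg s t b - Lg s t a|

theorem wd_nonneg (s t a b : ℝ) : 0 ≤ wd s t a b := abs_nonneg _

theorem wd_comm (s t a b : ℝ) : wd s t a b = wd t s a b := by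
  unfold wd Lg
  rw [← abs_neg]
  congr 1
  ring

/-- cocycle inequality -/
theorem wd_tri (s r t a b : ℝ) : wd s t a b ≤ wd s r a b + wd r t a b := by
  unfold wd
  have h : Lg s t b - Lg s t a = (Lg s r b - Lg s r a) + (Lg r t b - Lg r t a) := by
    unfold Lg; ring
  rw [h]
  exact abs_add_le _ _

theorem wd_self (s a b : ℝ) : wd s s a b = 0 := by
  unfold wd Lg; simp

/-- comparison of `Lg` at two slopes on the same side of `s` and of `t` -/
theorem Lg_lt {s t σ σ' : ℝ} (hs : 0 < (σ - s) * (σ' - s)) (ht : 0 < (σ - t) * (σ' - t))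
    (h : |(σ - s) * (σ' - t)| < |(σ' - s) * (σ - t)|) : Lg s t σ < Lg s t σ' := by
  have h1 : σ - s ≠ 0 := by rintro h0; rw [h0] at hs; simp at hs
  have h2 : σ' - s ≠ 0 := by rintro h0; rw [h0] at hs; simp at hs
  have h3 : σ - t ≠ 0 := by rintro h0; rw [h0] at ht; simp at ht
  have h4 : σ' - t ≠ 0 := by rintro h0; rw [h0] at ht; simp at ht
  have h5 : Real.log |(σ - s) * (σ' - t)| < Real.log |(σ' - s) * (σ - t)| :=
    Real.log_lt_log (abs_pos.2 (mul_ne_zero h1 h4)) h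
  rw [Real.log_abs, Real.log_abs, Real.log_mul h1 h4, Real.log_mul h2 h3] at h5
  unfold Lg
  linarith

/-- on a set on one side of `s` and of `t`, `Lg s t` is strictly monotone or strictly antitone -/
theorem Lg_mono {s t : ℝ} (hst : s ≠ t) (C : Set ℝ)
    (hs : ∀ σ ∈ C, ∀ σ' ∈ C, 0 < (σ - s) * (σ' - s))
    (ht : ∀ σ ∈ C, ∀ σ' ∈ C, 0 < (σ - t) * (σ' - t)) :
    StrictMonoOn (Lg s t) C ∨ StrictAntiOn (Lg s t) C := by
  rcases C.eq_empty_or_nonempty with h0 | ⟨σ0, h0⟩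
  · left; rw [h0]; intro x hx; exact hx.elim
  have hs0 : σ0 - s ≠ 0 := by
    intro h; have := hs σ0 h0 σ0 h0; rw [h] at this; simp at this
  have ht0 : σ0 - t ≠ 0 := by
    intro h; have := ht σ0 h0 σ0 h0; rw [h] at this; simp at this
  -- sign of `(σ - s) (σ' - t)` is constant
  have hsign : ∀ σ ∈ C, ∀ σ' ∈ C, 0 < ((σ - s) * (σ' - t)) * ((σ0 - s) * (σ0 - t)) := by
    intro σ hσ σ' hσ'
    have h1 := hs σ hσ σ0 h0
    have h2 := ht σ' hσ' σ0 h0
    have := mul_pos h1 h2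
    calc 0 < (σ - s) * (σ0 - s) * ((σ' - t) * (σ0 - t)) := this
      _ = _ := by ring
  have hdiff : ∀ σ σ' : ℝ, (σ' - s) * (σ - t) - (σ - s) * (σ' - t) = (σ' - σ) * (s - t) := by
    intro σ σ'; ring
  rcases lt_or_gt_of_ne (mul_ne_zero hs0 ht0) with hneg | hpos
  · -- products negative
    have hn : ∀ σ ∈ C, ∀ σ' ∈ C, (σ - s) * (σ' - t) < 0 := by
      intro σ hσ σ' hσ'
      have := hsign σ hσ σ' hσ'
      by_contra hcon
      push Not at hcon
      have := mul_nonpos_of_nonneg_of_nonpos hcon hneg.le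
      linarith
    rcases lt_or_gt_of_ne hst with h | h
    · left
      intro σ hσ σ' hσ' hlt
      apply Lg_lt (hs σ hσ σ' hσ') (ht σ hσ σ' hσ')
      rw [abs_of_neg (hn σ hσ σ' hσ'), abs_of_neg (hn σ' hσ' σ hσ)]
      have := hdiff σ σ'
      nlinarith
    · right
      intro σ hσ σ' hσ' hlt
      apply Lg_lt (hs σ' hσ' σ hσ) (ht σ' hσ' σ hσ)
      rw [abs_of_neg (hn σ hσ σ' hσ'), abs_of_neg (hn σ' hσ' σ hσ)]
      have := hdiff σ σ'
      nlinarith
  · have hn : ∀ σ ∈ C, ∀ σ' ∈ C, 0 < (σ - s) * (σ' - t) := by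
      intro σ hσ σ' hσ'
      have := hsign σ hσ σ' hσ'
      by_contra hcon
      push Not at hcon
      have := mul_nonpos_of_nonpos_of_nonneg hcon hpos.le
      linarith
    rcases lt_or_gt_of_ne hst with h | h
    · right
      intro σ hσ σ' hσ' hlt
      apply Lg_lt (hs σ' hσ' σ hσ) (ht σ' hσ' σ hσ)
      rw [abs_of_pos (hn σ hσ σ' hσ'), abs_of_pos (hn σ' hσ' σ hσ)]
      have := hdiff σ σ'
      nlinarith
    · left
      intro σ hσ σ' hσ' hlt
      apply Lg_lt (hs σ hσ σ' hσ') (ht σ hσ σ' hσ')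
      rw [abs_of_pos (hn σ hσ σ' hσ'), abs_of_pos (hn σ' hσ' σ hσ)]
      have := hdiff σ σ'
      nlinarith

/-- the variation of `Lg s t` over a subinterval -/
theorem wd_sub {s t a b σ σ' : ℝ} (hs : s ∉ Set.Icc a b) (ht : t ∉ Set.Icc a b)
    (h : σ ∈ Set.Icc a b) (h' : σ' ∈ Set.Icc a b) : |Lg s t σ' - Lg s t σ| ≤ wd s t a b := by
  rcases eq_or_ne s t with rfl | hst
  · rw [wd_self]; simp [Lg]
  have hab : a ≤ b := h.1.trans h.2
  have side : ∀ r : ℝ, r ∉ Set.Icc a b → ∀ x ∈ Set.Icc a b, ∀ y ∈ Set.Icc a b,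
      0 < (x - r) * (y - r) := by
    intro r hr x hx y hy
    rcases lt_or_ge r a with h1 | h1
    · exact mul_pos (by linarith [hx.1]) (by linarith [hy.1])
    · have h2 : b < r := by
        by_contra h3; exact hr ⟨h1, not_lt.1 h3⟩
      exact mul_pos_of_neg_of_neg (by linarith [hx.2]) (by linarith [hy.2])
  have ha : a ∈ Set.Icc a b := ⟨le_rfl, hab⟩
  have hb : b ∈ Set.Icc a b := ⟨hab, le_rfl⟩
  unfold wd
  rcases Lg_mono hst (Set.Icc a b) (side s hs) (side t ht) with hm | hm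
  · have m := hm.monotoneOn
    have h1 := m ha h h.1
    have h2 := m h hb h.2
    have h3 := m ha h' h'.1
    have h4 := m h' hb h'.2
    rw [abs_le]
    have h5 : Lg s t b - Lg s t a ≤ |Lg s t b - Lg s t a| := le_abs_self _
    constructor <;> linarith
  · have m := hm.antitoneOn
    have h1 := m ha h h.1
    have h2 := m h hb h.2
    have h3 := m ha h' h'.1
    have h4 := m h' hb h'.2
    rw [abs_le]
    have h5 : -(Lg s t b - Lg s t a) ≤ |Lg s t b - Lg s t a| := neg_le_abs _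
    constructor <;> linarith

/-- the three coordinates of a point: their sum vanishes -/
theorem Lg_sum {p1 p2 p3 z : Pt} (h12 : p1.1 ≠ p2.1) (h13 : p1.1 ≠ p3.1) (h23 : p2.1 ≠ p3.1)
    (z1 : z.1 ≠ p1.1) (z2 : z.1 ≠ p2.1) (z3 : z.1 ≠ p3.1)
    (n12 : sl p1 z ≠ sl p1 p2) (n13 : sl p1 z ≠ sl p1 p3)
    (n21 : sl p2 z ≠ sl p2 p1) (n23 : sl p2 z ≠ sl p2 p3)
    (n31 : sl p3 z ≠ sl p3 p1) (n32 : sl p3 z ≠ sl p3 p2) :
    Lg (sl p1 p3) (sl p1 p2) (sl p1 z) + Lg (sl p2 p1) (sl p2 p3) (sl p2 z) +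
      Lg (sl p3 p2) (sl p3 p1) (sl p3 z) = 0 := by
  have key : (sl p1 z - sl p1 p3) * (sl p2 z - sl p2 p1) * (sl p3 z - sl p3 p2) =
      (sl p1 z - sl p1 p2) * (sl p2 z - sl p2 p3) * (sl p3 z - sl p3 p1) := by
    unfold sl
    have e1 : z.1 - p1.1 ≠ 0 := sub_ne_zero.2 z1
    have e2 : z.1 - p2.1 ≠ 0 := sub_ne_zero.2 z2
    have e3 : z.1 - p3.1 ≠ 0 := sub_ne_zero.2 z3
    have e4 : p3.1 - p1.1 ≠ 0 := sub_ne_zero.2 h13.symm
    have e5 : p1.1 - p2.1 ≠ 0 := sub_ne_zero.2 h12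
    have e6 : p2.1 - p3.1 ≠ 0 := sub_ne_zero.2 h23
    have e7 : p2.1 - p1.1 ≠ 0 := sub_ne_zero.2 h12.symm
    have e8 : p3.1 - p2.1 ≠ 0 := sub_ne_zero.2 h23.symm
    have e9 : p1.1 - p3.1 ≠ 0 := sub_ne_zero.2 h13
    field_simp
    ring
  have hlog := congrArg Real.log key
  have a1 := sub_ne_zero.2 n12
  have a2 := sub_ne_zero.2 n13
  have a3 := sub_ne_zero.2 n21
  have a4 := sub_ne_zero.2 n23
  have a5 := sub_ne_zero.2 n31
  have a6 := sub_ne_zero.2 n32
  rw [Real.log_mul (mul_ne_zero a2 a3) a6, Real.log_mul a2 a3,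
    Real.log_mul (mul_ne_zero a1 a4) a5, Real.log_mul a1 a4] at hlog
  unfold Lg
  linarith

/-- long disjoint sectors, all on one side of `s` and on one side of `t` -/
theorem long_class {ι : Type*} [DecidableEq ι] (F : Finset ι) (lo hi σ : ι → ℝ)
    {s t X D ε : ℝ} (hσ : ∀ w ∈ F, σ w ∈ Set.Icc (lo w) (hi w))
    (hdis : ∀ w ∈ F, ∀ w' ∈ F, w ≠ w' →
      Disjoint (Set.Icc (lo w) (hi w)) (Set.Icc (lo w') (hi w')))
    (hs : ∀ w ∈ F, ∀ w' ∈ F, ∀ x ∈ Set.Icc (lo w) (hi w), ∀ y ∈ Set.Icc (lo w') (hi w'),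
      0 < (x - s) * (y - s))
    (ht : ∀ w ∈ F, ∀ w' ∈ F, ∀ x ∈ Set.Icc (lo w) (hi w), ∀ y ∈ Set.Icc (lo w') (hi w'),
      0 < (x - t) * (y - t))
    (hX : ∀ w ∈ F, X ≤ Lg s t (σ w) ∧ Lg s t (σ w) ≤ X + D) (hε : 0 < ε) (hD : 0 ≤ D)
    (hlong : ∀ w ∈ F, ε * D < wd s t (lo w) (hi w)) : (#F : ℝ) ≤ 1 / ε + 2 := by
  rcases F.eq_empty_or_nonempty with h0 | ⟨w0, hw0⟩
  · rw [h0]; simp; positivity
  have hst : s ≠ t := by
    rintro rfl
    have h1 := hlong w0 hw0
    rw [wd_self] at h1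
    have : 0 ≤ ε * D := by positivity
    linarith
  have hle : ∀ w ∈ F, lo w ≤ hi w := fun w hw => (hσ w hw).1.trans (hσ w hw).2
  set C : Set ℝ := {x | ∃ w ∈ F, x ∈ Set.Icc (lo w) (hi w)} with hC
  have hCs : ∀ x ∈ C, ∀ y ∈ C, 0 < (x - s) * (y - s) := by
    rintro x ⟨w, hw, hx⟩ y ⟨w', hw', hy⟩
    exact hs w hw w' hw' x hx y hy
  have hCt : ∀ x ∈ C, ∀ y ∈ C, 0 < (x - t) * (y - t) := by
    rintro x ⟨w, hw, hx⟩ y ⟨w', hw', hy⟩
    exact ht w hw w' hw' x hx y hy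
  have hlo : ∀ w ∈ F, lo w ∈ C := fun w hw => ⟨w, hw, le_rfl, hle w hw⟩
  have hhi : ∀ w ∈ F, hi w ∈ C := fun w hw => ⟨w, hw, hle w hw, le_rfl⟩
  have hσC : ∀ w ∈ F, σ w ∈ C := fun w hw => ⟨w, hw, hσ w hw⟩
  have hord : ∀ w ∈ F, ∀ w' ∈ F, w ≠ w' → hi w < lo w' ∨ hi w' < lo w := by
    intro w hw w' hw' hne
    by_contra hcon
    push Not at hcon
    have hd := hdis w hw w' hw' hne
    rcases le_total (lo w) (lo w') with h | h
    · exact Set.disjoint_left.1 hd (show lo w' ∈ Set.Icc (lo w) (hi w) from ⟨h, hcon.1⟩)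
        ⟨le_rfl, hle w' hw'⟩
    · exact Set.disjoint_left.1 hd (show lo w ∈ Set.Icc (lo w) (hi w) from ⟨le_rfl, hle w hw⟩)
        ⟨h, hcon.2⟩
  set Z : ι → Set ℝ := fun w => Set.uIcc (Lg s t (lo w)) (Lg s t (hi w)) with hZ
  have hmeet : ∀ w ∈ F, Lg s t (σ w) ∈ Z w := by
    intro w hw
    simp only [hZ]
    rcases Lg_mono hst C hCs hCt with hm | hm
    · exact Set.mem_uIcc.2 (Or.inl ⟨hm.monotoneOn (hlo w hw) (hσC w hw) (hσ w hw).1,
        hm.monotoneOn (hσC w hw) (hhi w hw) (hσ w hw).2⟩)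
    · exact Set.mem_uIcc.2 (Or.inr ⟨hm.antitoneOn (hσC w hw) (hhi w hw) (hσ w hw).2,
        hm.antitoneOn (hlo w hw) (hσC w hw) (hσ w hw).1⟩)
  have hZd : ∀ w ∈ F, ∀ w' ∈ F, w ≠ w' → Disjoint (Z w) (Z w') := by
    intro w hw w' hw' hne
    rw [Set.disjoint_left]
    intro x hx hx'
    simp only [hZ, Set.mem_uIcc] at hx hx'
    rcases Lg_mono hst C hCs hCt with hm | hm
    · have m1 := hm.monotoneOn (hlo w hw) (hhi w hw) (hle w hw)
      have m2 := hm.monotoneOn (hlo w' hw') (hhi w' hw') (hle w' hw')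
      rcases hord w hw w' hw' hne with h | h
      · have m3 := hm (hhi w hw) (hlo w' hw') h
        rcases hx with hx | hx <;> rcases hx' with hx' | hx' <;> linarith [hx.1, hx.2, hx'.1, hx'.2]
      · have m3 := hm (hhi w' hw') (hlo w hw) h
        rcases hx with hx | hx <;> rcases hx' with hx' | hx' <;> linarith [hx.1, hx.2, hx'.1, hx'.2]
    · have m1 := hm.antitoneOn (hlo w hw) (hhi w hw) (hle w hw)
      have m2 := hm.antitoneOn (hlo w' hw') (hhi w' hw') (hle w' hw')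
      rcases hord w hw w' hw' hne with h | h
      · have m3 := hm (hhi w hw) (hlo w' hw') h
        rcases hx with hx | hx <;> rcases hx' with hx' | hx' <;> linarith [hx.1, hx.2, hx'.1, hx'.2]
      · have m3 := hm (hhi w' hw') (hlo w hw) h
        rcases hx with hx | hx <;> rcases hx' with hx' | hx' <;> linarith [hx.1, hx.2, hx'.1, hx'.2]
  rcases hD.eq_or_lt with hD0 | hDpos
  · -- all values coincide
    have h1 : #F ≤ 1 := by
      rw [card_le_one]
      intro w hw w' hw'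
      by_contra hne
      have e1 := hX w hw
      have e2 := hX w' hw'
      have e3 : Lg s t (σ w) = Lg s t (σ w') := by rw [← hD0] at e1 e2; linarith [e1.1, e1.2, e2.1, e2.2]
      exact Set.disjoint_left.1 (hZd w hw w' hw' hne) (hmeet w hw) (e3 ▸ hmeet w' hw')
    have h2 : (#F : ℝ) ≤ 1 := by exact_mod_cast h1
    have h3 : 0 < 1 / ε := by positivity
    linarith
  · have h1 := H822.card_long_intervals F Z (fun w _ => Set.ordConnected_uIcc) hZd
      (l := ε * D) (a := X) (L := D) (by positivity)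
      (by
        intro w hw
        have h2 := hlong w hw
        unfold wd at h2
        rcases abs_cases (Lg s t (hi w) - Lg s t (lo w)) with ⟨h3, _⟩ | ⟨h3, _⟩
        · exact ⟨Lg s t (lo w), Set.left_mem_uIcc, Lg s t (hi w), Set.right_mem_uIcc,
            by linarith⟩
        · exact ⟨Lg s t (hi w), Set.right_mem_uIcc, Lg s t (lo w), Set.left_mem_uIcc,
            by linarith⟩)
      (fun w hw => ⟨_, hmeet w hw, hX w hw⟩) hD
    have h2 : D / (ε * D) = 1 / ε := by field_simp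
    rwa [h2] at h1

/-- long disjoint sectors which meet a cell -/
theorem long_sectors {ι : Type*} [DecidableEq ι] (F : Finset ι) (lo hi σ : ι → ℝ)
    {s t X D ε : ℝ} (hσ : ∀ w ∈ F, σ w ∈ Set.Icc (lo w) (hi w))
    (hdis : ∀ w ∈ F, ∀ w' ∈ F, w ≠ w' →
      Disjoint (Set.Icc (lo w) (hi w)) (Set.Icc (lo w') (hi w')))
    (hs : ∀ w ∈ F, s ∉ Set.Icc (lo w) (hi w)) (ht : ∀ w ∈ F, t ∉ Set.Icc (lo w) (hi w))
    (hX : ∀ w ∈ F, X ≤ Lg s t (σ w) ∧ Lg s t (σ w) ≤ X + D) (hε : 0 < ε) (hD : 0 ≤ D)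
    (hlong : ∀ w ∈ F, ε * D < wd s t (lo w) (hi w)) : (#F : ℝ) ≤ 4 * (1 / ε + 2) := by
  classical
  have hle : ∀ w ∈ F, lo w ≤ hi w := fun w hw => (hσ w hw).1.trans (hσ w hw).2
  have lowside : ∀ r : ℝ, ∀ w ∈ F, r ∉ Set.Icc (lo w) (hi w) → lo w < r →
      ∀ x ∈ Set.Icc (lo w) (hi w), x - r < 0 := by
    intro r w _ hr h x hx
    have h2 : hi w < r := by
      by_contra h3; exact hr ⟨h.le, not_lt.1 h3⟩
    linarith [hx.2]
  have highside : ∀ r : ℝ, ∀ w ∈ F, r ∉ Set.Icc (lo w) (hi w) → ¬ lo w < r →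
      ∀ x ∈ Set.Icc (lo w) (hi w), 0 < x - r := by
    intro r w hw hr h x hx
    have h2 : r < lo w := by
      rcases (not_lt.1 h).eq_or_lt with h3 | h3
      · exact absurd ⟨h3.symm.le, h3 ▸ hle w hw⟩ hr
      · exact h3
    linarith [hx.1]
  have hpart : ∀ (b c : Bool), (#{w ∈ F | decide (lo w < s) = b ∧ decide (lo w < t) = c} : ℝ) ≤
      1 / ε + 2 := by
    intro b c
    have hside : ∀ (r : ℝ) (b : Bool), (∀ w ∈ F, r ∉ Set.Icc (lo w) (hi w)) →
        ∀ w ∈ F, ∀ w' ∈ F, decide (lo w < r) = b → decide (lo w' < r) = b →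
        ∀ x ∈ Set.Icc (lo w) (hi w), ∀ y ∈ Set.Icc (lo w') (hi w'), 0 < (x - r) * (y - r) := by
      intro r b hr w hw w' hw' h h' x hx y hy
      cases b
      · exact mul_pos (highside r w hw (hr w hw) (of_decide_eq_false h) x hx)
          (highside r w' hw' (hr w' hw') (of_decide_eq_false h') y hy)
      · exact mul_pos_of_neg_of_neg (lowside r w hw (hr w hw) (of_decide_eq_true h) x hx)
          (lowside r w' hw' (hr w' hw') (of_decide_eq_true h') y hy)
    apply long_class _ lo hi σ (s := s) (t := t) (X := X) (D := D)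
    · intro w hw; exact hσ w (mem_filter.1 hw).1
    · intro w hw w' hw'; exact hdis w (mem_filter.1 hw).1 w' (mem_filter.1 hw').1
    · intro w hw w' hw'
      exact hside s b hs w (mem_filter.1 hw).1 w' (mem_filter.1 hw').1 (mem_filter.1 hw).2.1
        (mem_filter.1 hw').2.1
    · intro w hw w' hw'
      exact hside t c ht w (mem_filter.1 hw).1 w' (mem_filter.1 hw').1 (mem_filter.1 hw).2.2
        (mem_filter.1 hw').2.2
    · intro w hw; exact hX w (mem_filter.1 hw).1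
    · exact hε
    · exact hD
    · intro w hw; exact hlong w (mem_filter.1 hw).1
  have hsub : F ⊆ {w ∈ F | decide (lo w < s) = true ∧ decide (lo w < t) = true} ∪
      {w ∈ F | decide (lo w < s) = true ∧ decide (lo w < t) = false} ∪
      {w ∈ F | decide (lo w < s) = false ∧ decide (lo w < t) = true} ∪
      {w ∈ F | decide (lo w < s) = false ∧ decide (lo w < t) = false} := by
    intro w hw
    simp only [mem_union, mem_filter, hw, true_and]
    cases decide (lo w < s) <;> cases decide (lo w < t) <;> simp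
  have h1 : #F ≤ #{w ∈ F | decide (lo w < s) = true ∧ decide (lo w < t) = true} +
      #{w ∈ F | decide (lo w < s) = true ∧ decide (lo w < t) = false} +
      #{w ∈ F | decide (lo w < s) = false ∧ decide (lo w < t) = true} +
      #{w ∈ F | decide (lo w < s) = false ∧ decide (lo w < t) = false} := by
    refine (card_le_card hsub).trans ?_
    refine (card_union_le _ _).trans (Nat.add_le_add_right ?_ _)
    refine (card_union_le _ _).trans (Nat.add_le_add_right ?_ _)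
    exact card_union_le _ _
  have h2 : (#F : ℝ) ≤ #{w ∈ F | decide (lo w < s) = true ∧ decide (lo w < t) = true} +
      #{w ∈ F | decide (lo w < s) = true ∧ decide (lo w < t) = false} +
      #{w ∈ F | decide (lo w < s) = false ∧ decide (lo w < t) = true} +
      #{w ∈ F | decide (lo w < s) = false ∧ decide (lo w < t) = false} := by exact_mod_cast h1
  linarith [hpart true true, hpart true false, hpart false true, hpart false false]

open Classical in
/-- **step (2) of the cherry lemma**: `S` is a set of points seen from `p1` in `[a1, b1]` and from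
`p2` in `[a2, b2]`; every window at `p3` holds at most `μ` points of `S`.  Then few points of `S`
have a window at `p3` wider than `ε (w_1 + w_2)`. -/
theorem wid {ι : Type*} {p1 p2 p3 : Pt} (h12 : p1.1 ≠ p2.1) (h13 : p1.1 ≠ p3.1)
    (h23 : p2.1 ≠ p3.1) (S : Finset Pt) (win : Pt → ι) (lo hi : ι → ℝ) {a1 b1 a2 b2 μ ε : ℝ}
    (z1 : ∀ z ∈ S, z.1 ≠ p1.1 ∧ sl p1 z ∈ Set.Icc a1 b1)
    (z2 : ∀ z ∈ S, z.1 ≠ p2.1 ∧ sl p2 z ∈ Set.Icc a2 b2)
    (z3 : ∀ z ∈ S, z.1 ≠ p3.1 ∧ sl p3 z ∈ Set.Icc (lo (win z)) (hi (win z)))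
    (n12 : sl p1 p2 ∉ Set.Icc a1 b1) (n13 : sl p1 p3 ∉ Set.Icc a1 b1)
    (n21 : sl p2 p1 ∉ Set.Icc a2 b2) (n23 : sl p2 p3 ∉ Set.Icc a2 b2)
    (n31 : ∀ z ∈ S, sl p3 p1 ∉ Set.Icc (lo (win z)) (hi (win z)))
    (n32 : ∀ z ∈ S, sl p3 p2 ∉ Set.Icc (lo (win z)) (hi (win z)))
    (hdis : ∀ z ∈ S, ∀ z' ∈ S, win z ≠ win z' →
      Disjoint (Set.Icc (lo (win z)) (hi (win z))) (Set.Icc (lo (win z')) (hi (win z'))))
    (hμ0 : 0 ≤ μ) (hμ : ∀ z ∈ S, (#{z' ∈ S | win z' = win z} : ℝ) ≤ μ) (hε : 0 < ε) :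
    (#{z ∈ S | ε * (wd (sl p1 p2) (sl p1 p3) a1 b1 + wd (sl p2 p1) (sl p2 p3) a2 b2) <
      wd (sl p3 p1) (sl p3 p2) (lo (win z)) (hi (win z))} : ℝ) ≤ 4 * (1 / ε + 2) * μ := by
  set D := wd (sl p1 p2) (sl p1 p3) a1 b1 + wd (sl p2 p1) (sl p2 p3) a2 b2 with hD
  set T := {z ∈ S | ε * D < wd (sl p3 p1) (sl p3 p2) (lo (win z)) (hi (win z))} with hT
  have hTS : T ⊆ S := filter_subset _ _
  set F := T.image win with hF
  rcases T.eq_empty_or_nonempty with h0 | ⟨y0, hy0⟩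
  · rw [h0]
    simp only [card_empty, Nat.cast_zero]
    positivity
  -- the third coordinate
  set V : Pt → ℝ := fun z => Lg (sl p3 p1) (sl p3 p2) (sl p3 z) with hV
  have hval : ∀ z ∈ S, V z =
      Lg (sl p1 p3) (sl p1 p2) (sl p1 z) + Lg (sl p2 p1) (sl p2 p3) (sl p2 z) := by
    intro z hz
    have h1 := Lg_sum h12 h13 h23 (z1 z hz).1 (z2 z hz).1 (z3 z hz).1
      (fun h => n12 (h ▸ (z1 z hz).2)) (fun h => n13 (h ▸ (z1 z hz).2))
      (fun h => n21 (h ▸ (z2 z hz).2)) (fun h => n23 (h ▸ (z2 z hz).2))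
      (fun h => n31 z hz (h ▸ (z3 z hz).2)) (fun h => n32 z hz (h ▸ (z3 z hz).2))
    have h2 : V z = - Lg (sl p3 p2) (sl p3 p1) (sl p3 z) := by
      simp only [hV]; unfold Lg; ring
    rw [h2]; linarith
  have hvar : ∀ z ∈ S, ∀ z' ∈ S, V z' - V z ≤ D := by
    intro z hz z' hz'
    have h1 := wd_sub n13 n12 (z1 z hz).2 (z1 z' hz').2
    have h2 := wd_sub n21 n23 (z2 z hz).2 (z2 z' hz').2
    rw [wd_comm] at h1
    have h3 := le_abs_self (Lg (sl p1 p3) (sl p1 p2) (sl p1 z') -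
      Lg (sl p1 p3) (sl p1 p2) (sl p1 z))
    have h4 := le_abs_self (Lg (sl p2 p1) (sl p2 p3) (sl p2 z') -
      Lg (sl p2 p1) (sl p2 p3) (sl p2 z))
    rw [hval z hz, hval z' hz']
    linarith
  obtain ⟨x0, hx0, hmin⟩ := S.exists_min_image V ⟨y0, hTS hy0⟩
  have hpick : ∀ w ∈ F, ∃ z ∈ T, win z = w := fun w hw => mem_image.1 hw
  choose! pk hpkT hpkw using hpick
  have hD0 : 0 ≤ D := add_nonneg (wd_nonneg _ _ _ _) (wd_nonneg _ _ _ _)
  have hcardF : (#F : ℝ) ≤ 4 * (1 / ε + 2) := by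
    apply long_sectors F lo hi (fun w => sl p3 (pk w)) (s := sl p3 p1) (t := sl p3 p2)
      (X := V x0) (D := D)
    · intro w hw
      have h1 := (z3 (pk w) (hTS (hpkT w hw))).2
      rwa [hpkw w hw] at h1
    · intro w hw w' hw' hne
      have h1 := hdis (pk w) (hTS (hpkT w hw)) (pk w') (hTS (hpkT w' hw'))
      rw [hpkw w hw, hpkw w' hw'] at h1
      exact h1 hne
    · intro w hw
      have h1 := n31 (pk w) (hTS (hpkT w hw))
      rwa [hpkw w hw] at h1
    · intro w hw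
      have h1 := n32 (pk w) (hTS (hpkT w hw))
      rwa [hpkw w hw] at h1
    · intro w hw
      have h1 := hmin (pk w) (hTS (hpkT w hw))
      have h2 := hvar x0 hx0 (pk w) (hTS (hpkT w hw))
      exact ⟨h1, by linarith⟩
    · exact hε
    · exact hD0
    · intro w hw
      have h1 := (mem_filter.1 (hpkT w hw)).2
      rwa [hpkw w hw] at h1
  have h1 : (#T : ℝ) ≤ #F * μ := by
    have h2 : #T = ∑ w ∈ F, #{z ∈ T | win z = w} :=
      card_eq_sum_card_fiberwise fun z hz => mem_image_of_mem _ hz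
    rw [h2]
    push_cast
    calc ∑ w ∈ F, (#{z ∈ T | win z = w} : ℝ) ≤ ∑ _w ∈ F, μ := by
          apply sum_le_sum
          intro w hw
          have h3 := hμ (pk w) (hTS (hpkT w hw))
          rw [hpkw w hw] at h3
          refine le_trans ?_ h3
          have h4 : #{z ∈ T | win z = w} ≤ #{z ∈ S | win z = w} :=
            card_le_card (filter_subset_filter _ hTS)
          exact_mod_cast h4
      _ = #F * μ := by rw [sum_const, nsmul_eq_mul]
  calc (#T : ℝ) ≤ #F * μ := h1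
    _ ≤ 4 * (1 / ε + 2) * μ := mul_le_mul_of_nonneg_right hcardF hμ0

end Vale.Agent.P065.H650
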